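import Mathlib

/-!
Interpolation at the squares of the positive Chebyshev extremal points `cos(i π / (2m+1))`:
a polynomial `R` of degree at most `m` with `|x R(x^2)| ≤ 1` at these points has
`R(0) ≤ 2m+1`, with a quantitative gain when `x R(x^2)` stays below `1` at the smallest node.
-/

namespace Vale.Agent.Lib.Helper2.P047

open Polynomial

/-- the polynomials `S_j` with `T_{2j+1}(x) = x * S_j(x^2)` -/
noncomputable def oddCheb : ℕ → ℝ[X]
  | 0 => 1
  | 1 => 4 * X - 3
  | (j + 2) => (4 * X - 2) * oddCheb (j + 1) - oddCheb j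

lemma oddCheb_natDegree (j : ℕ) : (oddCheb j).natDegree ≤ j := by
  induction j using Nat.twoStepInduction with
  | zero => simp [oddCheb]
  | one =>
    unfold oddCheb
    compute_degree
  | more j ih1 ih2 =>
    unfold oddCheb
    refine le_trans (natDegree_sub_le _ _) (max_le ?_ (by omega))
    refine le_trans natDegree_mul_le ?_
    have h : (4 * X - 2 : ℝ[X]).natDegree ≤ 1 := by compute_degree
    omega

lemma oddCheb_eval_zero (j : ℕ) : (oddCheb j).eval 0 = (-1) ^ j * (2 * (j : ℝ) + 1) := by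
  induction j using Nat.twoStepInduction with
  | zero => simp [oddCheb]
  | one => simp [oddCheb]; norm_num
  | more j ih1 ih2 =>
    unfold oddCheb
    simp only [eval_sub, eval_mul, eval_X, eval_ofNat, ih1, ih2]
    push_cast
    ring

lemma cheb_step_four (k : ℤ) (x : ℝ) :
    (Chebyshev.T ℝ (k + 4)).eval x
      = (4 * x ^ 2 - 2) * (Chebyshev.T ℝ (k + 2)).eval x - (Chebyshev.T ℝ k).eval x := by
  have h1 := Chebyshev.T_add_two ℝ k
  have h2 := Chebyshev.T_add_two ℝ (k + 1)
  have h3 := Chebyshev.T_add_two ℝ (k + 2)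
  rw [show k + 1 + 2 = k + 3 by ring, show k + 1 + 1 = k + 2 by ring] at h2
  rw [show k + 2 + 2 = k + 4 by ring, show k + 2 + 1 = k + 3 by ring] at h3
  have g1 := congrArg (fun p : ℝ[X] => p.eval x) h1
  have g2 := congrArg (fun p : ℝ[X] => p.eval x) h2
  have g3 := congrArg (fun p : ℝ[X] => p.eval x) h3
  simp only [eval_sub, eval_mul, eval_X, eval_ofNat] at g1 g2 g3
  linear_combination g3 + 2 * x * g2 + g1

lemma oddCheb_spec (j : ℕ) (x : ℝ) :
    (Chebyshev.T ℝ (2 * (j : ℤ) + 1)).eval x = x * (oddCheb j).eval (x ^ 2) := by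
  induction j using Nat.twoStepInduction with
  | zero => simp [oddCheb]
  | one =>
    have e : (2 * ((1 : ℕ) : ℤ) + 1) = 1 + 2 := by norm_num
    rw [e, Chebyshev.T_add_two]
    have e2 : ((1 : ℤ) + 1) = 2 := by norm_num
    rw [e2, Chebyshev.T_two, Chebyshev.T_one]
    simp [oddCheb]
    ring
  | more j ih1 ih2 =>
    have e1 : (2 * ((j + 2 : ℕ) : ℤ) + 1) = 2 * (j : ℤ) + 1 + 4 := by push_cast; ring
    have e2 : (2 * ((j + 1 : ℕ) : ℤ) + 1) = 2 * (j : ℤ) + 1 + 2 := by push_cast; ring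
    rw [e2] at ih2
    rw [e1, cheb_step_four]
    have hdef : oddCheb (j + 2) = (4 * X - 2) * oddCheb (j + 1) - oddCheb j := by
      rw [oddCheb]
    rw [hdef]
    simp only [eval_sub, eval_mul, eval_X, eval_ofNat]
    linear_combination (4 * x ^ 2 - 2) * ih2 - ih1

/-- the nodes `cos(i π / (2m+1))` -/
noncomputable def nd (m i : ℕ) : ℝ := Real.cos (i * Real.pi / (2 * m + 1))

lemma nd_arg_lt (m i : ℕ) (hi : i ≤ m) : (i : ℝ) * Real.pi / (2 * m + 1) < Real.pi / 2 := by
  rw [div_lt_div_iff₀ (by positivity) (by norm_num)]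
  have h : (i : ℝ) ≤ m := by exact_mod_cast hi
  nlinarith [Real.pi_pos]

lemma nd_pos (m i : ℕ) (hi : i ≤ m) : 0 < nd m i := by
  apply Real.cos_pos_of_mem_Ioo
  constructor
  · have h : 0 ≤ (i : ℝ) * Real.pi / (2 * m + 1) := by positivity
    linarith [Real.pi_pos]
  · exact nd_arg_lt m i hi

lemma nd_lt (m : ℕ) {i j : ℕ} (hij : i < j) (hj : j ≤ m) : nd m j < nd m i := by
  unfold nd
  apply Real.strictAntiOn_cos
  · constructor
    · positivity
    · have h := nd_arg_lt m i (by omega)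
      linarith [Real.pi_pos]
  · constructor
    · positivity
    · have h := nd_arg_lt m j hj
      linarith [Real.pi_pos]
  · apply div_lt_div_of_pos_right _ (by positivity)
    apply mul_lt_mul_of_pos_right _ Real.pi_pos
    exact_mod_cast hij

lemma nd_zero (m : ℕ) : nd m 0 = 1 := by simp [nd]

lemma nd_cheb (m i : ℕ) : (Chebyshev.T ℝ (2 * (m : ℤ) + 1)).eval (nd m i) = (-1) ^ i := by
  unfold nd
  rw [Chebyshev.T_real_cos]
  have h : ((2 * (m : ℤ) + 1 : ℤ) : ℝ) * (i * Real.pi / (2 * m + 1)) = i * Real.pi := by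
    push_cast
    field_simp
  rw [h, Real.cos_nat_mul_pi]

/-- value of a Lagrange basis polynomial at `0` -/
lemma basis_eval_zero (s : Finset ℕ) (v : ℕ → ℝ) (i : ℕ) :
    (Lagrange.basis s v i).eval 0 = ∏ j ∈ s.erase i, v j / (v j - v i) := by
  rw [Lagrange.basis, eval_prod]
  apply Finset.prod_congr rfl
  intro j _
  simp only [Lagrange.basisDivisor, eval_mul, eval_C, eval_sub, eval_X]
  have h : v i - v j = -(v j - v i) := by ring
  rw [h, inv_neg]
  ring

/-- the sign of the Lagrange weights at `0` for decreasing positive nodes -/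
lemma lam_sign (m : ℕ) (v : ℕ → ℝ) (hpos : ∀ i ≤ m, 0 < v i)
    (hanti : ∀ i j, i < j → j ≤ m → v j < v i) (i : ℕ) (hi : i ≤ m) :
    0 < (-1 : ℝ) ^ (m + i) * ∏ j ∈ (Finset.range (m + 1)).erase i, v j / (v j - v i) := by
  rw [← Finset.prod_filter_mul_prod_filter_not ((Finset.range (m + 1)).erase i) (fun j => j < i)]
  have hA : 0 < ∏ j ∈ ((Finset.range (m + 1)).erase i).filter (fun j => j < i),
      v j / (v j - v i) := by
    apply Finset.prod_pos
    intro j hj
    simp only [Finset.mem_filter, Finset.mem_erase, Finset.mem_range] at hj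
    have h1 := hanti j i hj.2 hi
    have h2 := hpos j (by omega)
    exact div_pos h2 (by linarith)
  have hF : ((Finset.range (m + 1)).erase i).filter (fun j => ¬ j < i) = Finset.Ioc i m := by
    ext j
    simp only [Finset.mem_filter, Finset.mem_erase, Finset.mem_range, Finset.mem_Ioc]
    omega
  have hB : ∏ j ∈ ((Finset.range (m + 1)).erase i).filter (fun j => ¬ j < i), v j / (v j - v i)
      = (-1) ^ (m - i) * ∏ j ∈ Finset.Ioc i m, v j / (v i - v j) := by
    rw [hF, ← Nat.card_Ioc i m, ← Finset.prod_const, ← Finset.prod_mul_distrib]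
    apply Finset.prod_congr rfl
    intro j _
    have h : v j - v i = -(v i - v j) := by ring
    rw [h, div_neg]
    ring
  have hB' : 0 < ∏ j ∈ Finset.Ioc i m, v j / (v i - v j) := by
    apply Finset.prod_pos
    intro j hj
    simp only [Finset.mem_Ioc] at hj
    have h1 := hanti i j hj.1 hj.2
    have h2 := hpos j hj.2
    exact div_pos h2 (by linarith)
  rw [hB]
  have hs : (-1 : ℝ) ^ (m + i) * (-1) ^ (m - i) = 1 := by
    rw [← pow_add, show m + i + (m - i) = 2 * m by omega, pow_mul]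
    norm_num
  have hre : (-1 : ℝ) ^ (m + i)
      * ((∏ j ∈ ((Finset.range (m + 1)).erase i).filter (fun j => j < i), v j / (v j - v i))
        * ((-1) ^ (m - i) * ∏ j ∈ Finset.Ioc i m, v j / (v i - v j)))
      = ((-1 : ℝ) ^ (m + i) * (-1) ^ (m - i))
        * ((∏ j ∈ ((Finset.range (m + 1)).erase i).filter (fun j => j < i), v j / (v j - v i))
          * ∏ j ∈ Finset.Ioc i m, v j / (v i - v j)) := by ring
  rw [hre, hs, one_mul]
  exact mul_pos hA hB'

/-- the last Lagrange weight at `0` is at least `1` -/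
lemma lam_last (m : ℕ) (v : ℕ → ℝ) (hpos : ∀ i ≤ m, 0 < v i)
    (hanti : ∀ i j, i < j → j ≤ m → v j < v i) :
    1 ≤ ∏ j ∈ (Finset.range (m + 1)).erase m, v j / (v j - v m) := by
  calc (1 : ℝ) = ∏ _j ∈ (Finset.range (m + 1)).erase m, (1 : ℝ) := by simp
    _ ≤ ∏ j ∈ (Finset.range (m + 1)).erase m, v j / (v j - v m) := by
        apply Finset.prod_le_prod (fun _ _ => zero_le_one)
        intro j hj
        simp only [Finset.mem_erase, Finset.mem_range] at hj
        have h1 := hanti j m (by omega) le_rfl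
        have h2 := hpos m le_rfl
        rw [one_le_div (by linarith)]
        linarith

/-- the interpolation bound -/
lemma interp_bound (m : ℕ) (R : ℝ[X]) (hdeg : R.natDegree ≤ m)
    (hbd : ∀ i ≤ m, |nd m i * R.eval (nd m i ^ 2)| ≤ 1) (δ : ℝ) (hδ : 0 ≤ δ)
    (hm : nd m m * R.eval (nd m m ^ 2) ≤ 1 - δ) :
    R.eval 0 ≤ (2 * (m : ℝ) + 1) - δ / nd m m := by
  have hvpos : ∀ i ≤ m, 0 < nd m i ^ 2 := fun i hi => pow_pos (nd_pos m i hi) 2
  have hvanti : ∀ i j, i < j → j ≤ m → nd m j ^ 2 < nd m i ^ 2 := by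
    intro i j hij hj
    have h1 := nd_lt m hij hj
    have h2 := nd_pos m j hj
    nlinarith
  have hinj : Set.InjOn (fun i => nd m i ^ 2) (Finset.range (m + 1) : Finset ℕ) := by
    intro i hi j hj hij
    simp only [Finset.coe_range, Set.mem_Iio] at hi hj
    by_contra hne
    rcases Nat.lt_or_gt_of_ne hne with h | h
    · have h3 := hvanti i j h (by omega)
      simp only at hij
      linarith
    · have h3 := hvanti j i h (by omega)
      simp only at hij
      linarith
  have hlag : ∀ Q : ℝ[X], Q.natDegree ≤ m →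
      Q.eval 0 = ∑ i ∈ Finset.range (m + 1), Q.eval (nd m i ^ 2)
        * ∏ j ∈ (Finset.range (m + 1)).erase i, nd m j ^ 2 / (nd m j ^ 2 - nd m i ^ 2) := by
    intro Q hQ
    have hdegQ : Q.degree < (Finset.range (m + 1)).card := by
      rw [Finset.card_range]
      exact lt_of_le_of_lt Polynomial.degree_le_natDegree
        (by exact_mod_cast Nat.lt_succ_of_le hQ)
    have h := Lagrange.eq_interpolate hinj hdegQ
    conv_lhs => rw [h]
    rw [Lagrange.interpolate_apply, eval_finsetSum]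
    apply Finset.sum_congr rfl
    intro i _
    rw [eval_mul, eval_C, basis_eval_zero]
  have hR := hlag R hdeg
  have hS := hlag (oddCheb m) (oddCheb_natDegree m)
  rw [oddCheb_eval_zero] at hS
  have hSv : ∀ i ∈ Finset.range (m + 1), (oddCheb m).eval (nd m i ^ 2) = (-1) ^ i / nd m i := by
    intro i hi
    simp only [Finset.mem_range] at hi
    have h1 := oddCheb_spec m (nd m i)
    rw [nd_cheb] at h1
    have h2 := nd_pos m i (by omega)
    rw [eq_div_iff h2.ne']
    linarith
  have hmu_pos : ∀ i ∈ Finset.range (m + 1), 0 < (-1 : ℝ) ^ (m + i)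
      * ∏ j ∈ (Finset.range (m + 1)).erase i, nd m j ^ 2 / (nd m j ^ 2 - nd m i ^ 2) := by
    intro i hi
    simp only [Finset.mem_range] at hi
    exact lam_sign m (fun i => nd m i ^ 2) hvpos hvanti i (by omega)
  have hmu_m : 1 ≤ (-1 : ℝ) ^ (m + m)
      * ∏ j ∈ (Finset.range (m + 1)).erase m, nd m j ^ 2 / (nd m j ^ 2 - nd m m ^ 2) := by
    have h1 : (-1 : ℝ) ^ (m + m) = 1 := by
      rw [← two_mul, pow_mul]
      norm_num
    rw [h1, one_mul]
    exact lam_last m (fun i => nd m i ^ 2) hvpos hvanti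
  have hsum : ∑ i ∈ Finset.range (m + 1), ((-1 : ℝ) ^ (m + i)
      * ∏ j ∈ (Finset.range (m + 1)).erase i, nd m j ^ 2 / (nd m j ^ 2 - nd m i ^ 2)) / nd m i
      = 2 * (m : ℝ) + 1 := by
    have h1 : (-1 : ℝ) ^ m * ((-1) ^ m * (2 * (m : ℝ) + 1)) = 2 * (m : ℝ) + 1 := by
      rw [← mul_assoc, ← pow_add, ← two_mul, pow_mul]
      norm_num
    rw [← h1, hS, Finset.mul_sum]
    apply Finset.sum_congr rfl
    intro i hi
    rw [hSv i hi, pow_add]
    ring
  have hterm : ∀ i ∈ Finset.range (m + 1), R.eval (nd m i ^ 2)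
      * ∏ j ∈ (Finset.range (m + 1)).erase i, nd m j ^ 2 / (nd m j ^ 2 - nd m i ^ 2)
      ≤ ((-1 : ℝ) ^ (m + i)
        * ∏ j ∈ (Finset.range (m + 1)).erase i, nd m j ^ 2 / (nd m j ^ 2 - nd m i ^ 2)) / nd m i
        - (if i = m then δ / nd m m else 0) := by
    intro i hi
    have hmu := hmu_pos i hi
    simp only [Finset.mem_range] at hi
    have hx := nd_pos m i (by omega)
    have hb := hbd i (by omega)
    have hsq : (-1 : ℝ) ^ (m + i) * (-1 : ℝ) ^ (m + i) = 1 := by
      rw [← pow_add, ← two_mul, pow_mul]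
      norm_num
    have hrew : R.eval (nd m i ^ 2)
        * ∏ j ∈ (Finset.range (m + 1)).erase i, nd m j ^ 2 / (nd m j ^ 2 - nd m i ^ 2)
        = ((-1 : ℝ) ^ (m + i) * (nd m i * R.eval (nd m i ^ 2)))
          * (((-1 : ℝ) ^ (m + i)
            * ∏ j ∈ (Finset.range (m + 1)).erase i, nd m j ^ 2 / (nd m j ^ 2 - nd m i ^ 2))
              / nd m i) := by
      have h1 : R.eval (nd m i ^ 2)
          * ∏ j ∈ (Finset.range (m + 1)).erase i, nd m j ^ 2 / (nd m j ^ 2 - nd m i ^ 2)
          = ((-1 : ℝ) ^ (m + i) * (-1 : ℝ) ^ (m + i)) * (R.eval (nd m i ^ 2)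
          * ∏ j ∈ (Finset.range (m + 1)).erase i, nd m j ^ 2 / (nd m j ^ 2 - nd m i ^ 2)) := by
        rw [hsq, one_mul]
      rw [h1]
      field_simp
    rw [hrew]
    have hmu' : 0 < ((-1 : ℝ) ^ (m + i)
        * ∏ j ∈ (Finset.range (m + 1)).erase i, nd m j ^ 2 / (nd m j ^ 2 - nd m i ^ 2))
        / nd m i := div_pos hmu hx
    split_ifs with him
    · subst him
      have h1 : (-1 : ℝ) ^ (i + i) = 1 := by
        rw [← two_mul, pow_mul]
        norm_num
      simp only [h1, one_mul]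
      simp only [h1, one_mul] at hmu'
      have hm1 := hmu_m
      simp only [h1, one_mul] at hm1
      have h2 : nd i i * R.eval (nd i i ^ 2)
          * ((∏ j ∈ (Finset.range (i + 1)).erase i, nd i j ^ 2 / (nd i j ^ 2 - nd i i ^ 2))
            / nd i i)
          ≤ (1 - δ) * ((∏ j ∈ (Finset.range (i + 1)).erase i,
            nd i j ^ 2 / (nd i j ^ 2 - nd i i ^ 2)) / nd i i) :=
        mul_le_mul_of_nonneg_right hm hmu'.le
      have h3 : δ / nd i i ≤ δ * ((∏ j ∈ (Finset.range (i + 1)).erase i,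
            nd i j ^ 2 / (nd i j ^ 2 - nd i i ^ 2)) / nd i i) := by
        rw [div_eq_mul_inv, div_eq_mul_inv]
        apply mul_le_mul_of_nonneg_left _ hδ
        calc (nd i i)⁻¹ = 1 * (nd i i)⁻¹ := by ring
          _ ≤ _ := mul_le_mul_of_nonneg_right hm1 (inv_pos.mpr hx).le
      linarith
    · rw [sub_zero]
      have h1 : (-1 : ℝ) ^ (m + i) * (nd m i * R.eval (nd m i ^ 2)) ≤ 1 := by
        rcases neg_one_pow_eq_or ℝ (m + i) with h | h
        · rw [h, one_mul]
          exact le_trans (le_abs_self _) hb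
        · rw [h, neg_one_mul]
          exact le_trans (neg_le_abs _) hb
      calc (-1 : ℝ) ^ (m + i) * (nd m i * R.eval (nd m i ^ 2))
            * (((-1 : ℝ) ^ (m + i)
              * ∏ j ∈ (Finset.range (m + 1)).erase i, nd m j ^ 2 / (nd m j ^ 2 - nd m i ^ 2))
                / nd m i)
          ≤ 1 * (((-1 : ℝ) ^ (m + i)
              * ∏ j ∈ (Finset.range (m + 1)).erase i, nd m j ^ 2 / (nd m j ^ 2 - nd m i ^ 2))
                / nd m i) := mul_le_mul_of_nonneg_right h1 hmu'.le
        _ = _ := one_mul _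
  rw [hR]
  calc ∑ i ∈ Finset.range (m + 1), R.eval (nd m i ^ 2)
        * ∏ j ∈ (Finset.range (m + 1)).erase i, nd m j ^ 2 / (nd m j ^ 2 - nd m i ^ 2)
      ≤ ∑ i ∈ Finset.range (m + 1), (((-1 : ℝ) ^ (m + i)
        * ∏ j ∈ (Finset.range (m + 1)).erase i, nd m j ^ 2 / (nd m j ^ 2 - nd m i ^ 2)) / nd m i
        - (if i = m then δ / nd m m else 0)) := Finset.sum_le_sum hterm
    _ = (2 * (m : ℝ) + 1) - δ / nd m m := by
        rw [Finset.sum_sub_distrib, hsum, Finset.sum_ite_eq' (Finset.range (m + 1)) m]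
        simp

end Vale.Agent.Lib.Helper2.P047
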