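import Mathlib

/-!
Boolean functions on the discrete cube, their Fourier coefficients, degree and level-one sum
(conventions of problem P047).  The cube `{-1,1}^ι` is modelled as `ι → ℤˣ` (the units of `ℤ`
are exactly `1` and `-1`), and a Boolean function is a map `(ι → ℤˣ) → ℤˣ`.
-/

namespace Vale.Agent.Lib.Helper2.P047

variable {ι : Type} [Fintype ι] [DecidableEq ι]

/-- The Fourier coefficient `E[f(X) * prod_{i in S} X_i]`, `X` uniform on `{-1,1}^ι`. -/
noncomputable def fourier (f : (ι → ℤˣ) → ℤˣ) (S : Finset ι) : ℝ :=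
  (∑ x : ι → ℤˣ, ((f x : ℤ) : ℝ) * ∏ i ∈ S, ((x i : ℤ) : ℝ)) / 2 ^ Fintype.card ι

/-- The degree: the largest size of a set `S` with nonzero Fourier coefficient (`0` if none). -/
noncomputable def degree (f : (ι → ℤˣ) → ℤˣ) : ℕ :=
  (Finset.univ.filter (fun S : Finset ι => fourier f S ≠ 0)).sup Finset.card

/-- The sum of the level-one Fourier coefficients. -/
noncomputable def levelOne (f : (ι → ℤˣ) → ℤˣ) : ℝ :=
  ∑ i : ι, fourier f {i}

end Vale.Agent.Lib.Helper2.P047
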