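import Mathlib
import Vale.Agent.Lib.Helper2.P047.Defs

namespace Vale.Agent.Lib.Helper2.P047

open Finset

variable {ι κ : Type} [Fintype ι] [DecidableEq ι] [Fintype κ] [DecidableEq κ]

/-- real value of a sign -/
noncomputable def sg (u : ℤˣ) : ℝ := ((u : ℤ) : ℝ)

/-- the character of `S` -/
noncomputable def chi (S : Finset ι) (x : ι → ℤˣ) : ℝ := ∏ i ∈ S, sg (x i)

lemma sg_one : sg 1 = 1 := by simp [sg]

lemma sg_neg_one : sg (-1) = -1 := by simp [sg]

lemma sg_mul_self (u : ℤˣ) : sg u * sg u = 1 := by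
  rcases Int.units_eq_one_or u with h | h <;> simp [h, sg]

lemma sg_mul_of_ne {u v : ℤˣ} (h : u ≠ v) : sg u * sg v = -1 := by
  rcases Int.units_eq_one_or u with hu | hu <;> rcases Int.units_eq_one_or v with hv | hv <;>
    simp_all [sg]

lemma sum_sg : ∑ u : ℤˣ, sg u = 0 := by
  rw [show (Finset.univ : Finset ℤˣ) = {1, -1} from rfl]
  simp [sg]

lemma sum_units_one : ∑ _u : ℤˣ, (1 : ℝ) = 2 := by
  simp

lemma chi_eq_prod_ite (S : Finset ι) (x : ι → ℤˣ) :
    chi S x = ∏ i, (if i ∈ S then sg (x i) else 1) := by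
  unfold chi
  rw [Finset.prod_ite_mem, Finset.univ_inter]

lemma fourier_eq (f : (ι → ℤˣ) → ℤˣ) (S : Finset ι) :
    fourier f S = (∑ x : ι → ℤˣ, sg (f x) * chi S x) / 2 ^ Fintype.card ι := rfl

lemma sum_chi (U : Finset ι) :
    ∑ y : ι → ℤˣ, chi U y = if U = ∅ then (2 : ℝ) ^ Fintype.card ι else 0 := by
  have h1 : ∀ y : ι → ℤˣ, chi U y = ∏ i, (if i ∈ U then sg (y i) else 1) :=
    fun y => chi_eq_prod_ite U y
  simp_rw [h1]
  rw [← Fintype.prod_sum (fun (i : ι) (u : ℤˣ) => if i ∈ U then sg u else (1 : ℝ))]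
  split_ifs with hU
  · subst hU
    simp
  · obtain ⟨i, hi⟩ := Finset.nonempty_iff_ne_empty.mpr hU
    apply Finset.prod_eq_zero (Finset.mem_univ i)
    simp only [hi, if_true]
    exact sum_sg

lemma sum_chi_mul_chi (x y : ι → ℤˣ) :
    ∑ S : Finset ι, chi S x * chi S y = if x = y then (2 : ℝ) ^ Fintype.card ι else 0 := by
  have h1 : ∀ S : Finset ι, chi S x * chi S y = ∏ i ∈ S, (sg (x i) * sg (y i)) := by
    intro S
    unfold chi
    rw [Finset.prod_mul_distrib]
  simp_rw [h1]
  have h2 := Finset.prod_one_add (f := fun i => sg (x i) * sg (y i)) (Finset.univ : Finset ι)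
  rw [Finset.powerset_univ] at h2
  rw [← h2]
  split_ifs with hxy
  · subst hxy
    simp only [sg_mul_self]
    norm_num
  · obtain ⟨i, hi⟩ := Function.ne_iff.mp hxy
    apply Finset.prod_eq_zero (Finset.mem_univ i)
    rw [sg_mul_of_ne hi]
    norm_num

/-- Fourier inversion. -/
lemma inversion (f : (ι → ℤˣ) → ℤˣ) (y : ι → ℤˣ) :
    sg (f y) = ∑ S : Finset ι, fourier f S * chi S y := by
  simp_rw [fourier_eq, div_mul_eq_mul_div, Finset.sum_mul]
  rw [← Finset.sum_div, Finset.sum_comm]
  have h : ∀ x : ι → ℤˣ, ∑ S : Finset ι, sg (f x) * chi S x * chi S y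
      = sg (f x) * (if x = y then (2 : ℝ) ^ Fintype.card ι else 0) := by
    intro x
    rw [← sum_chi_mul_chi x y, Finset.mul_sum]
    apply Finset.sum_congr rfl
    intro S _
    ring
  simp_rw [h]
  simp

/-- block composition of Boolean functions on disjoint blocks of variables -/
def comp (f : (ι → ℤˣ) → ℤˣ) (g : (κ → ℤˣ) → ℤˣ) : (ι × κ → ℤˣ) → ℤˣ :=
  fun x => f (fun j => g (fun i => x (j, i)))

/-- the slice of `T` over the block `j` -/
def slice (T : Finset (ι × κ)) (j : ι) : Finset κ := Finset.univ.filter (fun i => (j, i) ∈ T)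

/-- the set of blocks met by `T` -/
def supp (T : Finset (ι × κ)) : Finset ι := Finset.univ.filter (fun j => (slice T j).Nonempty)

lemma chi_prod (T : Finset (ι × κ)) (x : ι × κ → ℤˣ) :
    chi T x = ∏ j, chi (slice T j) (fun i => x (j, i)) := by
  rw [chi_eq_prod_ite, Fintype.prod_prod_type]
  apply Finset.prod_congr rfl
  intro j _
  rw [chi_eq_prod_ite]
  apply Finset.prod_congr rfl
  intro i _
  simp [slice]

lemma sum_block (A : ι → (κ → ℤˣ) → ℝ) :
    ∑ x : ι × κ → ℤˣ, ∏ j, A j (fun i => x (j, i)) = ∏ j, ∑ y : κ → ℤˣ, A j y := by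
  rw [Fintype.prod_sum]
  exact Fintype.sum_equiv (Equiv.curry ι κ ℤˣ) _ _ (fun x => rfl)

lemma sum_block_term (g : (κ → ℤˣ) → ℤˣ) (U : Finset κ) (b : Prop) [Decidable b] :
    ∑ y : κ → ℤˣ, (if b then sg (g y) else 1) * chi U y
      = (2 : ℝ) ^ Fintype.card κ * (if b then fourier g U else if U = ∅ then 1 else 0) := by
  by_cases hb : b
  · simp only [hb, if_true]
    rw [fourier_eq]
    field_simp
  · simp only [hb, if_false, one_mul]
    rw [sum_chi]
    split_ifs <;> simp

theorem fourier_comp (f : (ι → ℤˣ) → ℤˣ) (g : (κ → ℤˣ) → ℤˣ) (hg : fourier g ∅ = 0)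
    (T : Finset (ι × κ)) :
    fourier (comp f g) T = fourier f (supp T) * ∏ j ∈ supp T, fourier g (slice T j) := by
  have key : ∀ x : ι × κ → ℤˣ, sg (comp f g x) * chi T x
      = ∑ S : Finset ι, fourier f S * ∏ j, ((if j ∈ S then sg (g (fun i => x (j, i))) else 1)
          * chi (slice T j) (fun i => x (j, i))) := by
    intro x
    rw [chi_prod T x]
    have h := inversion f (fun j => g (fun i => x (j, i)))
    show sg (f (fun j => g (fun i => x (j, i)))) * _ = _
    rw [h, Finset.sum_mul]
    apply Finset.sum_congr rfl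
    intro S _
    rw [chi_eq_prod_ite, Finset.prod_mul_distrib, mul_assoc]
  have blk : ∀ S : Finset ι, ∑ x : ι × κ → ℤˣ, ∏ j,
        ((if j ∈ S then sg (g (fun i => x (j, i))) else 1) * chi (slice T j) (fun i => x (j, i)))
      = ((2 : ℝ) ^ Fintype.card κ) ^ Fintype.card ι
        * ∏ j, (if j ∈ S then fourier g (slice T j) else if slice T j = ∅ then 1 else 0) := by
    intro S
    rw [sum_block (fun j y => (if j ∈ S then sg (g y) else 1) * chi (slice T j) y)]
    simp_rw [sum_block_term]
    rw [Finset.prod_mul_distrib, Finset.prod_const, Finset.card_univ]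
  have collapse : ∀ S : Finset ι, S ≠ supp T →
      ∏ j, (if j ∈ S then fourier g (slice T j) else if slice T j = ∅ then (1 : ℝ) else 0) = 0 := by
    intro S hS
    by_contra hne
    apply hS
    ext j
    simp only [supp, Finset.mem_filter, Finset.mem_univ, true_and]
    constructor
    · intro hj
      by_contra hemp
      rw [Finset.not_nonempty_iff_eq_empty] at hemp
      apply hne
      apply Finset.prod_eq_zero (Finset.mem_univ j)
      simp [hj, hemp, hg]
    · intro hj
      by_contra hjS
      apply hne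
      apply Finset.prod_eq_zero (Finset.mem_univ j)
      simp [hjS, Finset.nonempty_iff_ne_empty.mp hj]
  have hprod : ∏ j, (if j ∈ supp T then fourier g (slice T j)
        else if slice T j = ∅ then (1 : ℝ) else 0) = ∏ j ∈ supp T, fourier g (slice T j) := by
    have h : ∀ j, (if j ∈ supp T then fourier g (slice T j)
        else if slice T j = ∅ then (1 : ℝ) else 0)
        = (if j ∈ supp T then fourier g (slice T j) else 1) := by
      intro j
      by_cases hj : j ∈ supp T
      · simp [hj]
      · have h0 : slice T j = ∅ := by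
          simp only [supp, Finset.mem_filter, Finset.mem_univ, true_and,
            Finset.not_nonempty_iff_eq_empty] at hj
          exact hj
        simp [hj, h0]
    simp_rw [h]
    rw [Finset.prod_ite_mem, Finset.univ_inter]
  rw [fourier_eq]
  simp_rw [key]
  rw [Finset.sum_comm]
  simp_rw [← Finset.mul_sum, blk]
  rw [Finset.sum_eq_single (supp T) (fun S _ hS => by rw [collapse S hS]; ring)
    (fun h => absurd (Finset.mem_univ _) h)]
  rw [hprod, Fintype.card_prod, mul_comm (Fintype.card ι) (Fintype.card κ), pow_mul]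
  field_simp

lemma slice_singleton (j : ι) (i : κ) : slice ({(j, i)} : Finset (ι × κ)) j = {i} := by
  ext i'
  simp [slice]

lemma supp_singleton (j : ι) (i : κ) : supp ({(j, i)} : Finset (ι × κ)) = {j} := by
  ext j'
  simp only [supp, slice, Finset.mem_filter, Finset.mem_univ, true_and, Finset.mem_singleton,
    Prod.mk.injEq, Finset.Nonempty]
  constructor
  · rintro ⟨i', h, _⟩
    exact h
  · intro h
    exact ⟨i, h, rfl⟩

lemma supp_empty : supp (∅ : Finset (ι × κ)) = ∅ := by
  ext j
  simp [supp, slice]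

theorem fourier_comp_empty (f : (ι → ℤˣ) → ℤˣ) (g : (κ → ℤˣ) → ℤˣ) (hg : fourier g ∅ = 0) :
    fourier (comp f g) ∅ = fourier f ∅ := by
  rw [fourier_comp f g hg, supp_empty]
  simp

theorem levelOne_comp (f : (ι → ℤˣ) → ℤˣ) (g : (κ → ℤˣ) → ℤˣ) (hg : fourier g ∅ = 0) :
    levelOne (comp f g) = levelOne f * levelOne g := by
  unfold levelOne
  rw [Fintype.sum_prod_type, Finset.sum_mul_sum]
  apply Finset.sum_congr rfl
  intro j _
  apply Finset.sum_congr rfl
  intro i _
  rw [fourier_comp f g hg, supp_singleton, Finset.prod_singleton, slice_singleton]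

lemma card_eq_sum_slice (T : Finset (ι × κ)) : T.card = ∑ j ∈ supp T, (slice T j).card := by
  have hmaps : Set.MapsTo (Prod.fst : ι × κ → ι) (T : Set (ι × κ)) (supp T : Set ι) := by
    intro p hp
    have hp' : p ∈ T := hp
    show p.1 ∈ supp T
    simp only [supp, Finset.mem_filter, Finset.mem_univ, true_and]
    exact ⟨p.2, by simp [slice, hp']⟩
  rw [Finset.card_eq_sum_card_fiberwise hmaps]
  apply Finset.sum_congr rfl
  intro j _
  have himg : T.filter (fun p => p.1 = j) = (slice T j).image (fun i => (j, i)) := by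
    ext p
    simp only [Finset.mem_filter, Finset.mem_image, slice, Finset.mem_univ, true_and]
    constructor
    · rintro ⟨hp, rfl⟩
      exact ⟨p.2, hp, rfl⟩
    · rintro ⟨i, hi, rfl⟩
      exact ⟨hi, rfl⟩
  rw [himg, Finset.card_image_of_injective]
  intro a b hab
  exact (Prod.mk.inj hab).2

theorem degree_comp_le (f : (ι → ℤˣ) → ℤˣ) (g : (κ → ℤˣ) → ℤˣ) (hg : fourier g ∅ = 0) :
    degree (comp f g) ≤ degree f * degree g := by
  unfold degree
  apply Finset.sup_le
  intro T hT
  rw [Finset.mem_filter] at hT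
  have hT' := hT.2
  rw [fourier_comp f g hg] at hT'
  have h1 : fourier f (supp T) ≠ 0 := left_ne_zero_of_mul hT'
  have h2 : ∀ j ∈ supp T, fourier g (slice T j) ≠ 0 := by
    intro j hj
    exact Finset.prod_ne_zero_iff.mp (right_ne_zero_of_mul hT') j hj
  calc T.card = ∑ j ∈ supp T, (slice T j).card := card_eq_sum_slice T
    _ ≤ ∑ _j ∈ supp T, (Finset.univ.filter (fun S : Finset κ => fourier g S ≠ 0)).sup Finset.card :=
        Finset.sum_le_sum (fun j hj => Finset.le_sup (f := Finset.card) (by simp [h2 j hj]))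
    _ = (supp T).card * (Finset.univ.filter (fun S : Finset κ => fourier g S ≠ 0)).sup Finset.card := by
        simp
    _ ≤ _ := Nat.mul_le_mul_right _ (Finset.le_sup (f := Finset.card) (by simp [h1]))

/-- relabelling the variables along an equivalence -/
def reindex (e : ι ≃ κ) (f : (ι → ℤˣ) → ℤˣ) : (κ → ℤˣ) → ℤˣ := fun x => f (fun i => x (e i))

lemma fourier_reindex (e : ι ≃ κ) (f : (ι → ℤˣ) → ℤˣ) (S : Finset κ) :
    fourier (reindex e f) S = fourier f (S.map e.symm.toEmbedding) := by
  unfold fourier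
  rw [Fintype.card_congr e]
  congr 1
  symm
  apply Fintype.sum_equiv (Equiv.arrowCongr e (Equiv.refl ℤˣ))
  intro z
  simp only [reindex, Equiv.arrowCongr_apply, Equiv.refl_apply, Function.comp_apply,
    Equiv.symm_apply_apply, Finset.prod_map, Equiv.coe_toEmbedding]

lemma levelOne_reindex (e : ι ≃ κ) (f : (ι → ℤˣ) → ℤˣ) :
    levelOne (reindex e f) = levelOne f := by
  unfold levelOne
  simp_rw [fourier_reindex, Finset.map_singleton]
  exact Fintype.sum_equiv e.symm _ _ (fun k => rfl)

lemma degree_reindex_le (e : ι ≃ κ) (f : (ι → ℤˣ) → ℤˣ) :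
    degree (reindex e f) ≤ degree f := by
  unfold degree
  apply Finset.sup_le
  intro S hS
  rw [Finset.mem_filter, fourier_reindex] at hS
  have h : (S.map e.symm.toEmbedding).card ≤
      (Finset.univ.filter (fun S : Finset ι => fourier f S ≠ 0)).sup Finset.card :=
    Finset.le_sup (f := Finset.card) (by simp [hS.2])
  simpa using h

end Vale.Agent.Lib.Helper2.P047
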