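import Mathlib
import Vale.Agent.Lib.Helper2.P047.Compose

/-!
Gluing a Boolean function `h` into majority: on the slab where the sum of the majority
variables has absolute value one the glued function follows `h`, elsewhere it is the sign of
that sum.  Fourier coefficients, degree and level-one sum of the glued function.
-/

namespace Vale.Agent.Lib.Helper2.P047

open Finset

variable {ι κ : Type} [Fintype ι] [DecidableEq ι] [Fintype κ] [DecidableEq κ]

/-- the integer sum of the coordinates of a point of the cube -/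
def tot (x : κ → ℤˣ) : ℤ := ∑ j, (x j : ℤ)

/-- the sum `sum_x g(x) chi_U(x)` for a real function `g` on the cube -/
noncomputable def rsum (g : (κ → ℤˣ) → ℝ) (U : Finset κ) : ℝ := ∑ x : κ → ℤˣ, g x * chi U x

/-- indicator of the slab `|tot x| = 1` -/
noncomputable def slabB (x : κ → ℤˣ) : ℝ := if |tot x| = 1 then 1 else 0

/-- the sign of `tot x` off the slab, zero on the slab -/
noncomputable def signA (x : κ → ℤˣ) : ℝ := if |tot x| = 1 then 0 else if 0 < tot x then 1 else -1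

/-- `h` glued into majority -/
def glueMaj (h : (ι → ℤˣ) → ℤˣ) : (ι ⊕ κ → ℤˣ) → ℤˣ :=
  fun z => if |tot (fun j => z (Sum.inr j))| = 1 then h (fun i => z (Sum.inl i))
    else if 0 < tot (fun j => z (Sum.inr j)) then 1 else -1

lemma sg_glueMaj (h : (ι → ℤˣ) → ℤˣ) (z : ι ⊕ κ → ℤˣ) :
    sg (glueMaj h z) = signA (fun j => z (Sum.inr j))
      + sg (h (fun i => z (Sum.inl i))) * slabB (fun j => z (Sum.inr j)) := by
  unfold glueMaj signA slabB
  split_ifs <;> simp [sg]

lemma chi_sum (T : Finset (ι ⊕ κ)) (z : ι ⊕ κ → ℤˣ) :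
    chi T z = chi T.toLeft (fun i => z (Sum.inl i)) * chi T.toRight (fun j => z (Sum.inr j)) := by
  unfold chi
  conv_lhs => rw [← Finset.toLeft_disjSum_toRight (u := T)]
  rw [Finset.prod_disjSum]

lemma sum_sum_cube (F : (ι ⊕ κ → ℤˣ) → ℝ) :
    ∑ z : ι ⊕ κ → ℤˣ, F z = ∑ y : ι → ℤˣ, ∑ x : κ → ℤˣ, F (Sum.elim y x) := by
  rw [← Fintype.sum_prod_type']
  apply Fintype.sum_equiv (Equiv.sumArrowEquivProdArrow ι κ ℤˣ)
  intro z
  congr 1
  funext k
  cases k <;> rfl

theorem fourier_glueMaj (h : (ι → ℤˣ) → ℤˣ) (T : Finset (ι ⊕ κ)) :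
    fourier (glueMaj (κ := κ) h) T
      = ((if T.toLeft = ∅ then 1 else 0) * rsum signA T.toRight
          + fourier h T.toLeft * rsum slabB T.toRight) / 2 ^ Fintype.card κ := by
  rw [fourier_eq, sum_sum_cube]
  have key : ∀ (y : ι → ℤˣ) (x : κ → ℤˣ),
      sg (glueMaj h (Sum.elim y x)) * chi T (Sum.elim y x)
        = chi T.toLeft y * (signA x * chi T.toRight x)
          + (sg (h y) * chi T.toLeft y) * (slabB x * chi T.toRight x) := by
    intro y x
    rw [sg_glueMaj, chi_sum]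
    simp only [Sum.elim_inl, Sum.elim_inr]
    ring
  simp_rw [key, Finset.sum_add_distrib, ← Finset.mul_sum, ← Finset.sum_mul]
  rw [sum_chi, fourier_eq, Fintype.card_sum, pow_add]
  unfold rsum
  have h2 : (2 : ℝ) ^ Fintype.card ι ≠ 0 := by positivity
  have h3 : (2 : ℝ) ^ Fintype.card κ ≠ 0 := by positivity
  split_ifs <;> field_simp <;> ring

/-- a function invariant under the global sign flip has no odd-size coefficients -/
lemma rsum_even_of_odd_card (g : (κ → ℤˣ) → ℝ) (hg : ∀ x, g (fun j => - x j) = g x)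
    (U : Finset κ) (hU : Odd U.card) : rsum g U = 0 := by
  have h1 : rsum g U = - rsum g U := by
    unfold rsum
    rw [← Finset.sum_neg_distrib]
    apply Fintype.sum_equiv (Equiv.neg (κ → ℤˣ))
    intro x
    have h2 : chi U x = (-1) ^ U.card * chi U (fun i => - x i) := by
      unfold chi
      rw [← Finset.prod_const, ← Finset.prod_mul_distrib]
      apply Finset.prod_congr rfl
      intro i _
      simp [sg]
    have h3 : (-x : κ → ℤˣ) = fun i => - x i := rfl
    simp only [Equiv.neg_apply]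
    rw [h3, hg x, h2, hU.neg_one_pow]
    ring
  linarith

lemma tot_neg (x : κ → ℤˣ) : tot (fun j => - x j) = - tot x := by
  unfold tot
  simp [Finset.sum_neg_distrib]

lemma slabB_neg (x : κ → ℤˣ) : slabB (fun j => - x j) = slabB x := by
  unfold slabB
  rw [tot_neg, abs_neg]

lemma rsum_slabB_odd (U : Finset κ) (hU : Odd U.card) : rsum (slabB (κ := κ)) U = 0 :=
  rsum_even_of_odd_card slabB slabB_neg U hU

lemma card_le_degree (f : (ι → ℤˣ) → ℤˣ) (S : Finset ι) (hS : fourier f S ≠ 0) :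
    S.card ≤ degree f := by
  unfold degree
  exact Finset.le_sup (f := Finset.card) (by simp [hS])

theorem degree_glueMaj_le (h : (ι → ℤˣ) → ℤˣ) (hodd : Odd (Fintype.card κ)) (D : ℕ)
    (hD : degree h ≤ D) (hD1 : 1 ≤ D) :
    degree (glueMaj (κ := κ) h) ≤ D + Fintype.card κ - 1 := by
  unfold degree
  apply Finset.sup_le
  intro T hT
  rw [Finset.mem_filter] at hT
  have hT' := hT.2
  rw [fourier_glueMaj] at hT'
  have hcard : T.toLeft.card + T.toRight.card = T.card := Finset.card_toLeft_add_card_toRight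
  have hR : T.toRight.card ≤ Fintype.card κ := Finset.card_le_univ _
  by_cases hL : T.toLeft = ∅
  · rw [hL, Finset.card_empty] at hcard
    omega
  · simp only [hL, if_false, zero_mul, zero_add] at hT'
    have h1 : fourier h T.toLeft ≠ 0 := by
      intro h0
      apply hT'
      rw [h0, zero_mul, zero_div]
    have h2 : rsum (slabB (κ := κ)) T.toRight ≠ 0 := by
      intro h0
      apply hT'
      rw [h0, mul_zero, zero_div]
    have h3 : T.toLeft.card ≤ D := le_trans (card_le_degree h _ h1) hD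
    have h4 : ¬ Odd T.toRight.card := fun ho => h2 (rsum_slabB_odd _ ho)
    have h5 : T.toRight.card ≠ Fintype.card κ := by
      intro he
      rw [he] at h4
      exact h4 hodd
    omega

lemma toLeft_singleton_inl (i : ι) : ({Sum.inl i} : Finset (ι ⊕ κ)).toLeft = {i} := by
  ext a
  simp

lemma toRight_singleton_inl (i : ι) : ({Sum.inl i} : Finset (ι ⊕ κ)).toRight = ∅ := by
  ext a
  simp

lemma toLeft_singleton_inr (j : κ) : ({Sum.inr j} : Finset (ι ⊕ κ)).toLeft = ∅ := by
  ext a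
  simp

lemma toRight_singleton_inr (j : κ) : ({Sum.inr j} : Finset (ι ⊕ κ)).toRight = {j} := by
  ext a
  simp

theorem levelOne_glueMaj (h : (ι → ℤˣ) → ℤˣ) :
    levelOne (glueMaj (κ := κ) h)
      = (levelOne h * rsum (slabB (κ := κ)) ∅ + ∑ j, rsum (signA (κ := κ)) {j})
          / 2 ^ Fintype.card κ := by
  unfold levelOne
  rw [Fintype.sum_sum_type]
  have h1 : ∀ i : ι, fourier (glueMaj (κ := κ) h) {Sum.inl i}
      = fourier h {i} * rsum (slabB (κ := κ)) ∅ / 2 ^ Fintype.card κ := by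
    intro i
    rw [fourier_glueMaj, toLeft_singleton_inl, toRight_singleton_inl]
    simp
  have h2 : ∀ j : κ, fourier (glueMaj (κ := κ) h) {Sum.inr j}
      = rsum (signA (κ := κ)) {j} / 2 ^ Fintype.card κ := by
    intro j
    rw [fourier_glueMaj, toLeft_singleton_inr, toRight_singleton_inr,
      rsum_slabB_odd {j} (by simp)]
    simp
  simp_rw [h1, h2]
  rw [← Finset.sum_div, ← Finset.sum_div, ← Finset.sum_mul]
  ring

lemma cast_tot (x : κ → ℤˣ) : ((tot x : ℤ) : ℝ) = ∑ j, sg (x j) := by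
  unfold tot sg
  push_cast
  rfl

lemma rsum_slabB_empty : rsum (slabB (κ := κ)) ∅ = ∑ x : κ → ℤˣ, slabB x := by
  unfold rsum chi
  simp

lemma sum_rsum_signA :
    ∑ j, rsum (signA (κ := κ)) {j}
      = ∑ x : κ → ℤˣ, (if |tot x| = 1 then (0 : ℝ) else |((tot x : ℤ) : ℝ)|) := by
  unfold rsum
  rw [Finset.sum_comm]
  apply Finset.sum_congr rfl
  intro x _
  have h1 : ∀ j : κ, chi {j} x = sg (x j) := by
    intro j
    unfold chi
    simp
  simp_rw [h1, ← Finset.mul_sum, ← cast_tot]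
  unfold signA
  split_ifs with ha hb
  · simp
  · rw [one_mul, abs_of_pos (by exact_mod_cast hb)]
  · have hc : tot x ≤ 0 := not_lt.mp hb
    rw [abs_of_nonpos (by exact_mod_cast hc)]
    ring

/-- the level-one sum of the glued function as an average over the majority block -/
theorem levelOne_glueMaj' (h : (ι → ℤˣ) → ℤˣ) :
    levelOne (glueMaj (κ := κ) h)
      = (∑ x : κ → ℤˣ, (if |tot x| = 1 then levelOne h else |((tot x : ℤ) : ℝ)|))
          / 2 ^ Fintype.card κ := by
  rw [levelOne_glueMaj, rsum_slabB_empty, sum_rsum_signA, Finset.mul_sum,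
    ← Finset.sum_add_distrib]
  congr 1
  apply Finset.sum_congr rfl
  intro x _
  unfold slabB
  split_ifs <;> simp

/-- sums of a function of `tot` do not depend on the names of the variables -/
lemma sum_tot_congr {α β : Type} [Fintype α] [Fintype β] [DecidableEq α] [DecidableEq β] (e : α ≃ β) (G : ℤ → ℝ) :
    ∑ x : α → ℤˣ, G (tot x) = ∑ x : β → ℤˣ, G (tot x) := by
  apply Fintype.sum_equiv (Equiv.arrowCongr e (Equiv.refl ℤˣ))
  intro x
  congr 1
  unfold tot
  simp only [Equiv.arrowCongr_apply, Equiv.refl_apply, Function.comp_apply]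
  exact (Equiv.sum_comp e.symm (fun a => ((x a : ℤˣ) : ℤ))).symm

/-- adding one more variable -/
lemma sum_tot_option {α : Type} [Fintype α] [DecidableEq α] (G : ℤ → ℝ) :
    ∑ w : Option α → ℤˣ, G (tot w) = ∑ x : α → ℤˣ, (G (tot x + 1) + G (tot x - 1)) := by
  have h1 : ∑ w : Option α → ℤˣ, G (tot w)
      = ∑ p : ℤˣ × (α → ℤˣ), G ((p.1 : ℤ) + tot p.2) := by
    apply Fintype.sum_equiv (Equiv.piOptionEquivProd (β := fun _ => ℤˣ))
    intro w
    congr 1
    unfold tot
    rw [Fintype.sum_option]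
    rfl
  rw [h1, Fintype.sum_prod_type, show (Finset.univ : Finset ℤˣ) = {1, -1} from rfl,
    Finset.sum_pair (by decide), ← Finset.sum_add_distrib]
  apply Finset.sum_congr rfl
  intro x _
  congr 2
  · simp [add_comm]
  · simp
    ring

/-- adding three more variables -/
lemma sum_tot_option3 {α : Type} [Fintype α] [DecidableEq α] (G : ℤ → ℝ) :
    ∑ w : Option (Option (Option α)) → ℤˣ, G (tot w)
      = ∑ x : α → ℤˣ, (G (tot x + 3) + 3 * G (tot x + 1) + 3 * G (tot x - 1) + G (tot x - 3)) := by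
  rw [sum_tot_option, sum_tot_option (fun s => G (s + 1) + G (s - 1)),
    sum_tot_option (fun s => G (s + 1 + 1) + G (s + 1 - 1) + (G (s - 1 + 1) + G (s - 1 - 1)))]
  apply Finset.sum_congr rfl
  intro x _
  have e1 : tot x + 1 + 1 + 1 = tot x + 3 := by ring
  have e2 : tot x + 1 + 1 - 1 = tot x + 1 := by ring
  have e3 : tot x + 1 - 1 + 1 = tot x + 1 := by ring
  have e4 : tot x + 1 - 1 - 1 = tot x - 1 := by ring
  have e5 : tot x - 1 + 1 + 1 = tot x + 1 := by ring
  have e6 : tot x - 1 + 1 - 1 = tot x - 1 := by ring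
  have e7 : tot x - 1 - 1 + 1 = tot x - 1 := by ring
  have e8 : tot x - 1 - 1 - 1 = tot x - 3 := by ring
  rw [e1, e2, e3, e4, e5, e6, e7, e8]
  ring

lemma odd_tot (hodd : Odd (Fintype.card κ)) (x : κ → ℤˣ) : Odd (tot x) := by
  have h : ∀ j : κ, ((x j : ℤˣ) : ℤ) = 1 - 2 * (if x j = -1 then 1 else 0) := by
    intro j
    rcases Int.units_eq_one_or (x j) with h | h <;> simp [h]
  obtain ⟨k, hk⟩ := hodd
  refine ⟨(k : ℤ) - ∑ j : κ, (if x j = -1 then (1 : ℤ) else 0), ?_⟩
  unfold tot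
  simp_rw [h]
  rw [Finset.sum_sub_distrib, ← Finset.mul_sum]
  simp only [Finset.sum_const, Finset.card_univ, nsmul_eq_mul, mul_one]
  rw [hk]
  push_cast
  ring

/-- the three-step average of the absolute value at an odd integer -/
lemma abs_three_step (s : ℤ) (hs : Odd s) :
    |((s + 3 : ℤ) : ℝ)| + 3 * |((s + 1 : ℤ) : ℝ)| + 3 * |((s - 1 : ℤ) : ℝ)| + |((s - 3 : ℤ) : ℝ)|
      = if |s| = 1 then 12 else 8 * |((s : ℤ) : ℝ)| := by
  obtain ⟨k, rfl⟩ := hs
  rcases lt_trichotomy k 0 with hk | hk | hk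
  · rcases lt_or_eq_of_le (Int.lt_iff_add_one_le.mp hk) with hk2 | hk2
    · have h1 : ¬ |2 * k + 1| = 1 := by
        rw [abs_of_neg (by omega)]
        omega
      rw [if_neg h1]
      have a1 : ((2 * k + 1 + 3 : ℤ) : ℝ) ≤ 0 := by exact_mod_cast (by omega : 2 * k + 1 + 3 ≤ 0)
      have a2 : ((2 * k + 1 + 1 : ℤ) : ℝ) ≤ 0 := by exact_mod_cast (by omega : 2 * k + 1 + 1 ≤ 0)
      have a3 : ((2 * k + 1 - 1 : ℤ) : ℝ) ≤ 0 := by exact_mod_cast (by omega : 2 * k + 1 - 1 ≤ 0)
      have a4 : ((2 * k + 1 - 3 : ℤ) : ℝ) ≤ 0 := by exact_mod_cast (by omega : 2 * k + 1 - 3 ≤ 0)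
      have a5 : ((2 * k + 1 : ℤ) : ℝ) ≤ 0 := by exact_mod_cast (by omega : 2 * k + 1 ≤ 0)
      rw [abs_of_nonpos a1, abs_of_nonpos a2, abs_of_nonpos a3, abs_of_nonpos a4, abs_of_nonpos a5]
      push_cast
      ring
    · have hk3 : k = -1 := by omega
      subst hk3
      norm_num
  · subst hk
    norm_num
  · have h1 : ¬ |2 * k + 1| = 1 := by
      rw [abs_of_pos (by omega)]
      omega
    rw [if_neg h1]
    have a1 : (0 : ℝ) ≤ ((2 * k + 1 + 3 : ℤ) : ℝ) := by exact_mod_cast (by omega : 0 ≤ 2 * k + 1 + 3)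
    have a2 : (0 : ℝ) ≤ ((2 * k + 1 + 1 : ℤ) : ℝ) := by exact_mod_cast (by omega : 0 ≤ 2 * k + 1 + 1)
    have a3 : (0 : ℝ) ≤ ((2 * k + 1 - 1 : ℤ) : ℝ) := by exact_mod_cast (by omega : 0 ≤ 2 * k + 1 - 1)
    have a4 : (0 : ℝ) ≤ ((2 * k + 1 - 3 : ℤ) : ℝ) := by exact_mod_cast (by omega : 0 ≤ 2 * k + 1 - 3)
    have a5 : (0 : ℝ) ≤ ((2 * k + 1 : ℤ) : ℝ) := by exact_mod_cast (by omega : 0 ≤ 2 * k + 1)
    rw [abs_of_nonneg a1, abs_of_nonneg a2, abs_of_nonneg a3, abs_of_nonneg a4, abs_of_nonneg a5]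
    push_cast
    ring

end Vale.Agent.Lib.Helper2.P047
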