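import Mathlib
import Vale.Agent.Lib.Helper2.P047.Compose
import Vale.Agent.Lib.Helper2.P047.MajGlue

/-!
Fourier analysis of a Boolean function under the product measure on the cube in which every
coordinate has mean `ρ`: shifted characters, biased coefficients, Parseval, and the inequality
`(1 - ρ^2) * sum_i |a_ρ({i})| ≤ deg(f) * (1 - a_ρ(∅)^2)`.
-/

namespace Vale.Agent.Lib.Helper2.P047

open Finset

variable {ι : Type} [Fintype ι] [DecidableEq ι]

/-- the weight of a point under the product measure with coordinate mean `ρ` -/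
noncomputable def wt (ρ : ℝ) (x : ι → ℤˣ) : ℝ := ∏ i, (1 + ρ * sg (x i)) / 2

/-- the shifted character `prod_{i in S} (x_i - ρ)` -/
noncomputable def psi (ρ : ℝ) (S : Finset ι) (x : ι → ℤˣ) : ℝ := ∏ i ∈ S, (sg (x i) - ρ)

/-- the coefficient of the shifted character of `S` in the expansion of `f` -/
noncomputable def bco (f : (ι → ℤˣ) → ℤˣ) (ρ : ℝ) (S : Finset ι) : ℝ :=
  ∑ T ∈ Finset.univ.filter (fun T : Finset ι => S ⊆ T), fourier f T * ρ ^ (T.card - S.card)

lemma psi_eq_prod_ite (ρ : ℝ) (S : Finset ι) (x : ι → ℤˣ) :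
    psi ρ S x = ∏ i, (if i ∈ S then sg (x i) - ρ else 1) := by
  unfold psi
  rw [Finset.prod_ite_mem, Finset.univ_inter]

/-- orthogonality of the shifted characters under the biased measure -/
lemma biased_orth (ρ : ℝ) (S T : Finset ι) :
    ∑ x : ι → ℤˣ, wt ρ x * (psi ρ S x * psi ρ T x)
      = if S = T then (1 - ρ ^ 2) ^ S.card else 0 := by
  have h1 : ∀ x : ι → ℤˣ, wt ρ x * (psi ρ S x * psi ρ T x)
      = ∏ i, ((1 + ρ * sg (x i)) / 2 * ((if i ∈ S then sg (x i) - ρ else 1)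
          * (if i ∈ T then sg (x i) - ρ else 1))) := by
    intro x
    rw [psi_eq_prod_ite, psi_eq_prod_ite]
    unfold wt
    rw [← Finset.prod_mul_distrib, ← Finset.prod_mul_distrib]
  simp_rw [h1]
  rw [← Fintype.prod_sum (fun (i : ι) (u : ℤˣ) => (1 + ρ * sg u) / 2
      * ((if i ∈ S then sg u - ρ else 1) * (if i ∈ T then sg u - ρ else 1)))]
  have h2 : ∀ i : ι, ∑ u : ℤˣ, (1 + ρ * sg u) / 2
      * ((if i ∈ S then sg u - ρ else 1) * (if i ∈ T then sg u - ρ else 1))
      = if i ∈ S then (if i ∈ T then 1 - ρ ^ 2 else 0) else (if i ∈ T then 0 else 1) := by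
    intro i
    rw [show (Finset.univ : Finset ℤˣ) = {1, -1} from rfl, Finset.sum_pair (by decide)]
    simp only [sg_one, sg_neg_one]
    split_ifs <;> ring
  simp_rw [h2]
  split_ifs with hST
  · subst hST
    have h3 : ∀ i : ι, (if i ∈ S then (if i ∈ S then 1 - ρ ^ 2 else 0) else (if i ∈ S then 0 else 1))
        = if i ∈ S then 1 - ρ ^ 2 else (1 : ℝ) := by
      intro i
      split_ifs <;> rfl
    simp_rw [h3]
    rw [Finset.prod_ite_mem, Finset.univ_inter, Finset.prod_const]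
  · have hex : ∃ i, ¬ (i ∈ S ↔ i ∈ T) := by
      by_contra hcon
      push Not at hcon
      exact hST (Finset.ext hcon)
    obtain ⟨i, hi⟩ := hex
    apply Finset.prod_eq_zero (Finset.mem_univ i)
    by_cases h1 : i ∈ S <;> by_cases h2 : i ∈ T
    · exact absurd (iff_of_true h1 h2) hi
    · simp [h1, h2]
    · simp [h1, h2]
    · exact absurd (iff_of_false h1 h2) hi

lemma sum_wt (ρ : ℝ) : ∑ x : ι → ℤˣ, wt ρ x = 1 := by
  have h := biased_orth ρ (∅ : Finset ι) ∅
  simpa [psi] using h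

lemma wt_nonneg {ρ : ℝ} (h1 : -1 ≤ ρ) (h2 : ρ ≤ 1) (x : ι → ℤˣ) : 0 ≤ wt ρ x := by
  unfold wt
  apply Finset.prod_nonneg
  intro i _
  rcases Int.units_eq_one_or (x i) with h | h
  · rw [h, sg_one]; linarith
  · rw [h, sg_neg_one]; linarith

lemma wt_pos {ρ : ℝ} (h1 : -1 < ρ) (h2 : ρ < 1) (x : ι → ℤˣ) : 0 < wt ρ x := by
  unfold wt
  apply Finset.prod_pos
  intro i _
  rcases Int.units_eq_one_or (x i) with h | h
  · rw [h, sg_one]; linarith
  · rw [h, sg_neg_one]; linarith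

/-- characters in terms of shifted characters -/
lemma chi_expand (ρ : ℝ) (T : Finset ι) (x : ι → ℤˣ) :
    chi T x = ∑ S ∈ T.powerset, ρ ^ (T.card - S.card) * psi ρ S x := by
  unfold chi psi
  have h : ∀ i ∈ T, sg (x i) = (sg (x i) - ρ) + ρ := fun i _ => by ring
  rw [Finset.prod_congr rfl h, Finset.prod_add]
  apply Finset.sum_congr rfl
  intro S hS
  rw [Finset.prod_const, Finset.card_sdiff_of_subset (Finset.mem_powerset.mp hS), mul_comm]

/-- the expansion of `f` in shifted characters -/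
lemma biased_expand (f : (ι → ℤˣ) → ℤˣ) (ρ : ℝ) (x : ι → ℤˣ) :
    sg (f x) = ∑ S : Finset ι, bco f ρ S * psi ρ S x := by
  rw [inversion f x]
  simp_rw [chi_expand ρ, Finset.mul_sum]
  unfold bco
  simp_rw [Finset.sum_mul]
  rw [Finset.sum_comm' (s := Finset.univ) (t := fun T : Finset ι => T.powerset)
    (t' := Finset.univ) (s' := fun S : Finset ι => Finset.univ.filter (fun T : Finset ι => S ⊆ T))]
  · apply Finset.sum_congr rfl
    intro S _
    apply Finset.sum_congr rfl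
    intro T _
    ring
  · intro T S
    simp [Finset.mem_powerset]

/-- pairing of an expansion with one shifted character -/
lemma biased_pairing (ρ : ℝ) (c : Finset ι → ℝ) (T : Finset ι) :
    ∑ x : ι → ℤˣ, wt ρ x * ((∑ S : Finset ι, c S * psi ρ S x) * psi ρ T x)
      = c T * (1 - ρ ^ 2) ^ T.card := by
  have h1 : ∀ x : ι → ℤˣ, wt ρ x * ((∑ S : Finset ι, c S * psi ρ S x) * psi ρ T x)
      = ∑ S : Finset ι, c S * (wt ρ x * (psi ρ S x * psi ρ T x)) := by
    intro x
    rw [Finset.sum_mul, Finset.mul_sum]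
    apply Finset.sum_congr rfl
    intro S _
    ring
  simp_rw [h1]
  rw [Finset.sum_comm]
  simp_rw [← Finset.mul_sum, biased_orth]
  rw [Finset.sum_eq_single T]
  · simp
  · intro S _ hS
    simp [hS]
  · intro h
    exact absurd (Finset.mem_univ T) h

/-- Parseval for an expansion in shifted characters -/
lemma biased_parseval (ρ : ℝ) (c : Finset ι → ℝ) :
    ∑ x : ι → ℤˣ, wt ρ x * (∑ S : Finset ι, c S * psi ρ S x) ^ 2
      = ∑ S : Finset ι, c S ^ 2 * (1 - ρ ^ 2) ^ S.card := by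
  have h1 : ∀ x : ι → ℤˣ, wt ρ x * (∑ S : Finset ι, c S * psi ρ S x) ^ 2
      = ∑ T : Finset ι, c T * (wt ρ x * ((∑ S : Finset ι, c S * psi ρ S x) * psi ρ T x)) := by
    intro x
    rw [pow_two]
    conv_lhs => rw [Finset.mul_sum, Finset.mul_sum]
    apply Finset.sum_congr rfl
    intro T _
    ring
  simp_rw [h1]
  rw [Finset.sum_comm]
  simp_rw [← Finset.mul_sum, biased_pairing]
  apply Finset.sum_congr rfl
  intro S _
  ring

/-- the biased mean of `f` is the coefficient of the empty set -/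
lemma bco_empty_eq (f : (ι → ℤˣ) → ℤˣ) (ρ : ℝ) :
    bco f ρ ∅ = ∑ x : ι → ℤˣ, wt ρ x * sg (f x) := by
  have h := biased_pairing ρ (bco f ρ) (∅ : Finset ι)
  simp only [Finset.card_empty, pow_zero, mul_one] at h
  rw [← h]
  apply Finset.sum_congr rfl
  intro x _
  rw [← biased_expand f ρ x]
  simp [psi]

/-- Parseval for a Boolean function under the biased measure -/
lemma bco_parseval (f : (ι → ℤˣ) → ℤˣ) (ρ : ℝ) :
    ∑ S : Finset ι, bco f ρ S ^ 2 * (1 - ρ ^ 2) ^ S.card = 1 := by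
  rw [← biased_parseval ρ (bco f ρ)]
  simp_rw [← biased_expand f ρ]
  have h : ∀ x : ι → ℤˣ, wt ρ x * sg (f x) ^ 2 = wt ρ x := by
    intro x
    rw [pow_two, sg_mul_self, mul_one]
  simp_rw [h]
  exact sum_wt ρ

/-- the point with coordinate `i` negated -/
def flipAt (i : ι) (x : ι → ℤˣ) : ι → ℤˣ := Function.update x i (- x i)

lemma flip_term (ρ : ℝ) (i : ι) (S : Finset ι) (x : ι → ℤˣ) :
    (1 - ρ * sg (x i)) / 2 * (psi ρ S x - psi ρ S (flipAt i x))
      = if i ∈ S then psi ρ S x else 0 := by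
  unfold psi flipAt
  split_ifs with hi
  · rw [← Finset.mul_prod_erase S _ hi, ← Finset.mul_prod_erase S _ hi]
    have h1 : ∏ j ∈ S.erase i, (sg (Function.update x i (- x i) j) - ρ)
        = ∏ j ∈ S.erase i, (sg (x j) - ρ) := by
      apply Finset.prod_congr rfl
      intro j hj
      rw [Function.update_of_ne (Finset.ne_of_mem_erase hj)]
    rw [h1, Function.update_self]
    have h2 : sg (- x i) = - sg (x i) := by simp [sg]
    rw [h2]
    have h3 := sg_mul_self (x i)
    have h4 : (1 - ρ * sg (x i)) / 2 * ((sg (x i) - ρ) - (- sg (x i) - ρ))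
        = sg (x i) - ρ := by
      have : (1 - ρ * sg (x i)) / 2 * ((sg (x i) - ρ) - (- sg (x i) - ρ))
          = sg (x i) - ρ * (sg (x i) * sg (x i)) := by ring
      rw [this, h3, mul_one]
    calc (1 - ρ * sg (x i)) / 2 * ((sg (x i) - ρ) * ∏ j ∈ S.erase i, (sg (x j) - ρ)
          - (- sg (x i) - ρ) * ∏ j ∈ S.erase i, (sg (x j) - ρ))
        = ((1 - ρ * sg (x i)) / 2 * ((sg (x i) - ρ) - (- sg (x i) - ρ)))
            * ∏ j ∈ S.erase i, (sg (x j) - ρ) := by ring
      _ = _ := by rw [h4]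
  · have h1 : ∏ j ∈ S, (sg (Function.update x i (- x i) j) - ρ) = ∏ j ∈ S, (sg (x j) - ρ) := by
      apply Finset.prod_congr rfl
      intro j hj
      have hji : j ≠ i := by
        rintro rfl
        exact hi hj
      rw [Function.update_of_ne hji]
    rw [h1, sub_self, mul_zero]

/-- the part of the expansion of `f` that involves coordinate `i`, pointwise -/
lemma coord_part (f : (ι → ℤˣ) → ℤˣ) (ρ : ℝ) (i : ι) (x : ι → ℤˣ) :
    ∑ S : Finset ι, (if i ∈ S then bco f ρ S else 0) * psi ρ S x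
      = (1 - ρ * sg (x i)) / 2 * (sg (f x) - sg (f (flipAt i x))) := by
  rw [biased_expand f ρ x, biased_expand f ρ (flipAt i x), ← Finset.sum_sub_distrib,
    Finset.mul_sum]
  apply Finset.sum_congr rfl
  intro S _
  have h := flip_term ρ i S x
  calc (if i ∈ S then bco f ρ S else 0) * psi ρ S x
      = bco f ρ S * (if i ∈ S then psi ρ S x else 0) := by split_ifs <;> ring
    _ = bco f ρ S * ((1 - ρ * sg (x i)) / 2 * (psi ρ S x - psi ρ S (flipAt i x))) := by rw [h]
    _ = _ := by ring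

/-- the pointwise identity behind the coordinate inequality -/
lemma coord_abs {ρ : ℝ} (h1 : -1 ≤ ρ) (h2 : ρ ≤ 1) (f : (ι → ℤˣ) → ℤˣ) (i : ι) (x : ι → ℤˣ) :
    |(∑ S : Finset ι, (if i ∈ S then bco f ρ S else 0) * psi ρ S x) * psi ρ {i} x|
      = (∑ S : Finset ι, (if i ∈ S then bco f ρ S else 0) * psi ρ S x) ^ 2 := by
  rw [coord_part]
  have hpsi : psi ρ {i} x = sg (x i) - ρ := by simp [psi]
  rw [hpsi, abs_eq (sq_nonneg _)]
  rcases Int.units_eq_one_or (x i) with hx | hx <;>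
  rcases Int.units_eq_one_or (f x) with hf | hf <;>
  rcases Int.units_eq_one_or (f (flipAt i x)) with hg | hg <;>
  simp only [hx, hf, hg, sg_one, sg_neg_one] <;>
  first
    | (left; ring1)
    | (right; ring1)

/-- the coordinate inequality: `(1 - ρ^2) |a_ρ({i})|` is at most the biased weight on sets
containing `i` -/
lemma coord_ineq {ρ : ℝ} (h1 : -1 ≤ ρ) (h2 : ρ ≤ 1) (f : (ι → ℤˣ) → ℤˣ) (i : ι) :
    (1 - ρ ^ 2) * |bco f ρ {i}|
      ≤ ∑ S : Finset ι, (if i ∈ S then bco f ρ S ^ 2 * (1 - ρ ^ 2) ^ S.card else 0) := by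
  have hpair := biased_pairing ρ (fun S : Finset ι => if i ∈ S then bco f ρ S else 0) {i}
  have hpars := biased_parseval ρ (fun S : Finset ι => if i ∈ S then bco f ρ S else 0)
  simp only [Finset.mem_singleton, if_true, Finset.card_singleton, pow_one] at hpair
  have hnn : 0 ≤ 1 - ρ ^ 2 := by nlinarith
  calc (1 - ρ ^ 2) * |bco f ρ {i}| = |bco f ρ {i} * (1 - ρ ^ 2)| := by
        rw [abs_mul, abs_of_nonneg hnn, mul_comm]
    _ = |∑ x : ι → ℤˣ, wt ρ x * ((∑ S : Finset ι, (if i ∈ S then bco f ρ S else 0) * psi ρ S x)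
          * psi ρ {i} x)| := by rw [hpair]
    _ ≤ ∑ x : ι → ℤˣ, |wt ρ x * ((∑ S : Finset ι, (if i ∈ S then bco f ρ S else 0) * psi ρ S x)
          * psi ρ {i} x)| := Finset.abs_sum_le_sum_abs _ _
    _ = ∑ x : ι → ℤˣ, wt ρ x
          * (∑ S : Finset ι, (if i ∈ S then bco f ρ S else 0) * psi ρ S x) ^ 2 := by
        apply Finset.sum_congr rfl
        intro x _
        rw [abs_mul, abs_of_nonneg (wt_nonneg h1 h2 x), coord_abs h1 h2 f i x]
    _ = ∑ S : Finset ι, (if i ∈ S then bco f ρ S else 0) ^ 2 * (1 - ρ ^ 2) ^ S.card := hpars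
    _ = _ := by
        apply Finset.sum_congr rfl
        intro S _
        split_ifs <;> simp

lemma bco_eq_zero_of_card (f : (ι → ℤˣ) → ℤˣ) (ρ : ℝ) (S : Finset ι) (hS : degree f < S.card) :
    bco f ρ S = 0 := by
  unfold bco
  apply Finset.sum_eq_zero
  intro T hT
  have hST : S ⊆ T := (Finset.mem_filter.mp hT).2
  have h0 : fourier f T = 0 := by
    by_contra hne
    have h1 := card_le_degree f T hne
    have h2 := Finset.card_le_card hST
    omega
  rw [h0, zero_mul]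

/-- the biased level-one inequality -/
lemma sum_coord_le {ρ : ℝ} (h1 : -1 ≤ ρ) (h2 : ρ ≤ 1) (f : (ι → ℤˣ) → ℤˣ) :
    (1 - ρ ^ 2) * ∑ i, |bco f ρ {i}| ≤ degree f * (1 - bco f ρ ∅ ^ 2) := by
  have hnn : 0 ≤ 1 - ρ ^ 2 := by nlinarith
  have hp := bco_parseval f ρ
  rw [Finset.mul_sum]
  calc ∑ i, (1 - ρ ^ 2) * |bco f ρ {i}|
      ≤ ∑ i, ∑ S : Finset ι, (if i ∈ S then bco f ρ S ^ 2 * (1 - ρ ^ 2) ^ S.card else 0) :=
        Finset.sum_le_sum (fun i _ => coord_ineq h1 h2 f i)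
    _ = ∑ S : Finset ι, ∑ i, (if i ∈ S then bco f ρ S ^ 2 * (1 - ρ ^ 2) ^ S.card else 0) :=
        Finset.sum_comm
    _ = ∑ S : Finset ι, (S.card : ℝ) * (bco f ρ S ^ 2 * (1 - ρ ^ 2) ^ S.card) := by
        apply Finset.sum_congr rfl
        intro S _
        rw [Finset.sum_ite_mem, Finset.univ_inter, Finset.sum_const, nsmul_eq_mul]
    _ ≤ ∑ S : Finset ι, ((degree f : ℝ) * (bco f ρ S ^ 2 * (1 - ρ ^ 2) ^ S.card)
          - (if S = ∅ then (degree f : ℝ) * bco f ρ ∅ ^ 2 else 0)) := by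
        apply Finset.sum_le_sum
        intro S _
        split_ifs with hS
        · subst hS
          simp
        · rw [sub_zero]
          by_cases hd : S.card ≤ degree f
          · apply mul_le_mul_of_nonneg_right (by exact_mod_cast hd)
            exact mul_nonneg (sq_nonneg _) (pow_nonneg hnn _)
          · rw [bco_eq_zero_of_card f ρ S (by omega)]
            simp
    _ = degree f * (1 - bco f ρ ∅ ^ 2) := by
        rw [Finset.sum_sub_distrib, ← Finset.mul_sum, hp, Finset.sum_ite_eq' Finset.univ ∅]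
        simp
        ring

/-- the biased mean as a polynomial in `ρ` -/
lemma bco_empty_poly (f : (ι → ℤˣ) → ℤˣ) (ρ : ℝ) :
    bco f ρ ∅ = ∑ T : Finset ι, fourier f T * ρ ^ T.card := by
  unfold bco
  simp

/-- the sum of the biased level-one coefficients is the derivative of the biased mean -/
lemma sum_bco_singleton (f : (ι → ℤˣ) → ℤˣ) (ρ : ℝ) :
    ∑ i, bco f ρ {i} = ∑ T : Finset ι, fourier f T * ((T.card : ℝ) * ρ ^ (T.card - 1)) := by
  unfold bco
  have h1 : ∀ i : ι, ∑ T ∈ Finset.univ.filter (fun T : Finset ι => {i} ⊆ T),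
      fourier f T * ρ ^ (T.card - ({i} : Finset ι).card)
      = ∑ T : Finset ι, (if i ∈ T then fourier f T * ρ ^ (T.card - 1) else 0) := by
    intro i
    rw [Finset.sum_filter]
    apply Finset.sum_congr rfl
    intro T _
    simp [Finset.singleton_subset_iff]
  simp_rw [h1]
  rw [Finset.sum_comm]
  apply Finset.sum_congr rfl
  intro T _
  rw [Finset.sum_ite_mem, Finset.univ_inter, Finset.sum_const, nsmul_eq_mul]
  ring

lemma hasDerivAt_bco_empty (f : (ι → ℤˣ) → ℤˣ) (ρ : ℝ) :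
    HasDerivAt (fun r : ℝ => bco f r ∅) (∑ i, bco f ρ {i}) ρ := by
  rw [sum_bco_singleton]
  have h : (fun r : ℝ => bco f r ∅) = fun r : ℝ => ∑ T : Finset ι, fourier f T * r ^ T.card := by
    funext r
    exact bco_empty_poly f r
  rw [h]
  apply HasDerivAt.fun_sum
  intro T _
  exact (hasDerivAt_pow T.card ρ).const_mul (fourier f T)

/-- the differential inequality for the biased mean -/
lemma bias_ode {ρ : ℝ} (h1 : -1 ≤ ρ) (h2 : ρ ≤ 1) (f : (ι → ℤˣ) → ℤˣ) :
    (1 - ρ ^ 2) * |∑ i, bco f ρ {i}| ≤ degree f * (1 - bco f ρ ∅ ^ 2) := by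
  have hnn : 0 ≤ 1 - ρ ^ 2 := by nlinarith
  exact le_trans (mul_le_mul_of_nonneg_left (Finset.abs_sum_le_sum_abs _ _) hnn)
    (sum_coord_le h1 h2 f)

/-- the biased mean lies in `[-1, 1]` -/
lemma abs_bco_empty_le {ρ : ℝ} (h1 : -1 ≤ ρ) (h2 : ρ ≤ 1) (f : (ι → ℤˣ) → ℤˣ) :
    |bco f ρ ∅| ≤ 1 := by
  rw [bco_empty_eq]
  calc |∑ x : ι → ℤˣ, wt ρ x * sg (f x)| ≤ ∑ x : ι → ℤˣ, |wt ρ x * sg (f x)| :=
        Finset.abs_sum_le_sum_abs _ _
    _ = ∑ x : ι → ℤˣ, wt ρ x := by
        apply Finset.sum_congr rfl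
        intro x _
        rw [abs_mul, abs_of_nonneg (wt_nonneg h1 h2 x)]
        rcases Int.units_eq_one_or (f x) with h | h
        · rw [h, sg_one]; simp
        · rw [h, sg_neg_one]; simp
    _ = 1 := sum_wt ρ

/-- for a non-constant function the biased mean lies strictly inside `(-1, 1)` -/
lemma abs_bco_empty_lt {ρ : ℝ} (h1 : -1 < ρ) (h2 : ρ < 1) (f : (ι → ℤˣ) → ℤˣ)
    (hf : ∃ x y, f x ≠ f y) : |bco f ρ ∅| < 1 := by
  obtain ⟨x, y, hxy⟩ := hf
  have hle : ∀ z : ι → ℤˣ, wt ρ z * sg (f z) ≤ wt ρ z ∧ - wt ρ z ≤ wt ρ z * sg (f z) := by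
    intro z
    have hw := wt_pos h1 h2 z
    rcases Int.units_eq_one_or (f z) with h | h
    · rw [h, sg_one]; constructor <;> linarith
    · rw [h, sg_neg_one]; constructor <;> linarith
  have hex1 : ∃ z : ι → ℤˣ, f z = 1 := by
    rcases Int.units_eq_one_or (f x) with h | h
    · exact ⟨x, h⟩
    · rcases Int.units_eq_one_or (f y) with h' | h'
      · exact ⟨y, h'⟩
      · exact absurd (h.trans h'.symm) hxy
  have hex2 : ∃ z : ι → ℤˣ, f z = -1 := by
    rcases Int.units_eq_one_or (f x) with h | h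
    · rcases Int.units_eq_one_or (f y) with h' | h'
      · exact absurd (h.trans h'.symm) hxy
      · exact ⟨y, h'⟩
    · exact ⟨x, h⟩
  rw [bco_empty_eq, abs_lt]
  constructor
  · obtain ⟨z, hz⟩ := hex1
    have hw := wt_pos h1 h2 z
    have : ∑ u : ι → ℤˣ, (- wt ρ u) < ∑ u : ι → ℤˣ, wt ρ u * sg (f u) := by
      apply Finset.sum_lt_sum (fun u _ => (hle u).2)
      refine ⟨z, Finset.mem_univ z, ?_⟩
      rw [hz, sg_one]
      linarith
    rw [Finset.sum_neg_distrib, sum_wt] at this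
    exact this
  · obtain ⟨z, hz⟩ := hex2
    have hw := wt_pos h1 h2 z
    have : ∑ u : ι → ℤˣ, wt ρ u * sg (f u) < ∑ u : ι → ℤˣ, wt ρ u := by
      apply Finset.sum_lt_sum (fun u _ => (hle u).1)
      refine ⟨z, Finset.mem_univ z, ?_⟩
      rw [hz, sg_neg_one]
      linarith
    rw [sum_wt] at this
    exact this

end Vale.Agent.Lib.Helper2.P047
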