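import Mathlib
import Vale.Agent.Lib.Helper2.P047.Compose
import Vale.Agent.Lib.Helper2.P047.MajGlue

/-!
A Boolean function on seven variables with degree at most four and level-one sum `7/4`
(the lines `{i, i+1, i+3}` of the Fano plane on `Fin 7`, each paired with the point `i+6`).
-/

namespace Vale.Agent.Lib.Helper2.P047

open Finset

/-- the value is `-1` exactly when for some `i` (indices mod 7) the coordinates `i`, `i+1`, `i+3`
are `-1` and the coordinate `i+6` is `1` -/
def fano (y : Fin 7 → ℤˣ) : ℤˣ :=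
  if ∃ i : Fin 7, y i = -1 ∧ y (i + 1) = -1 ∧ y (i + 3) = -1 ∧ y (i + 6) = 1 then -1 else 1

/-- one coordinate factor of the indicator of the `i`-th pattern -/
noncomputable def fanoC (i k : Fin 7) (u : ℤˣ) : ℝ :=
  if k = i ∨ k = i + 1 ∨ k = i + 3 then (1 - sg u) / 2
  else if k = i + 6 then (1 + sg u) / 2 else 1

/-- the sum over the two signs of a coordinate factor, twisted by the sign when `b` holds -/
def fanoE (i k : Fin 7) (b : Bool) : ℤ :=
  if k = i ∨ k = i + 1 ∨ k = i + 3 then (if b then -1 else 1)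
  else if k = i + 6 then 1 else (if b then 0 else 2)

lemma fano_term (i : Fin 7) (y : Fin 7 → ℤˣ) :
    ∏ k, fanoC i k (y k)
      = if (y i = -1 ∧ y (i + 1) = -1 ∧ y (i + 3) = -1 ∧ y (i + 6) = 1) then 1 else 0 := by
  have hne : i + 6 ≠ i ∧ i + 6 ≠ i + 1 ∧ i + 6 ≠ i + 3 := by
    revert i
    decide
  split_ifs with hT
  · obtain ⟨h0, h1, h3, h6⟩ := hT
    apply Finset.prod_eq_one
    intro k _
    unfold fanoC
    split_ifs with ha hb
    · rcases ha with rfl | rfl | rfl
      · rw [h0]; simp [sg]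
      · rw [h1]; simp [sg]
      · rw [h3]; simp [sg]
    · rw [hb, h6]; simp [sg]
    · rfl
  · have hcases : y i = 1 ∨ y (i + 1) = 1 ∨ y (i + 3) = 1 ∨ y (i + 6) = -1 := by
      by_contra hcon
      apply hT
      have e : ∀ u : ℤˣ, ¬ u = 1 → u = -1 := fun u hu =>
        (Int.units_eq_one_or u).resolve_left hu
      have e' : ∀ u : ℤˣ, ¬ u = -1 → u = 1 := fun u hu =>
        (Int.units_eq_one_or u).resolve_right hu
      refine ⟨e _ (fun h => hcon (Or.inl h)), e _ (fun h => hcon (Or.inr (Or.inl h))),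
        e _ (fun h => hcon (Or.inr (Or.inr (Or.inl h)))),
        e' _ (fun h => hcon (Or.inr (Or.inr (Or.inr h))))⟩
    rcases hcases with h | h | h | h
    · apply Finset.prod_eq_zero (Finset.mem_univ i)
      unfold fanoC
      rw [if_pos (Or.inl rfl), h]
      simp [sg]
    · apply Finset.prod_eq_zero (Finset.mem_univ (i + 1))
      unfold fanoC
      rw [if_pos (Or.inr (Or.inl rfl)), h]
      simp [sg]
    · apply Finset.prod_eq_zero (Finset.mem_univ (i + 3))
      unfold fanoC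
      rw [if_pos (Or.inr (Or.inr rfl)), h]
      simp [sg]
    · apply Finset.prod_eq_zero (Finset.mem_univ (i + 6))
      unfold fanoC
      rw [if_neg (by
        rintro (h' | h' | h')
        · exact hne.1 h'
        · exact hne.2.1 h'
        · exact hne.2.2 h'), if_pos rfl, h]
      simp [sg]

lemma fano_disjoint (y : Fin 7 → ℤˣ) (i j : Fin 7) (hij : i ≠ j)
    (hi : y i = -1 ∧ y (i + 1) = -1 ∧ y (i + 3) = -1 ∧ y (i + 6) = 1)
    (hj : y j = -1 ∧ y (j + 1) = -1 ∧ y (j + 3) = -1 ∧ y (j + 6) = 1) : False := by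
  have key : ∀ i j : Fin 7, i ≠ j →
      (i + 6 = j ∨ i + 6 = j + 1 ∨ i + 6 = j + 3) ∨ (j + 6 = i ∨ j + 6 = i + 1 ∨ j + 6 = i + 3) := by
    decide
  have hne : (1 : ℤˣ) ≠ -1 := by decide
  obtain ⟨i0, i1, i3, i6⟩ := hi
  obtain ⟨j0, j1, j3, j6⟩ := hj
  rcases key i j hij with (h | h | h) | (h | h | h)
  · rw [h, j0] at i6; exact hne i6.symm
  · rw [h, j1] at i6; exact hne i6.symm
  · rw [h, j3] at i6; exact hne i6.symm
  · rw [h, i0] at j6; exact hne j6.symm
  · rw [h, i1] at j6; exact hne j6.symm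
  · rw [h, i3] at j6; exact hne j6.symm

lemma sg_fano (y : Fin 7 → ℤˣ) : sg (fano y) = 1 - 2 * ∑ i, ∏ k, fanoC i k (y k) := by
  simp_rw [fano_term]
  unfold fano
  split_ifs with hex
  · obtain ⟨i0, hi0⟩ := hex
    rw [Finset.sum_eq_single i0]
    · rw [if_pos hi0]
      simp [sg]
      norm_num
    · intro j _ hj
      rw [if_neg]
      intro hjT
      exact fano_disjoint y j i0 hj hjT hi0
    · intro h
      exact absurd (Finset.mem_univ i0) h
  · have : ∀ i : Fin 7, ¬ (y i = -1 ∧ y (i + 1) = -1 ∧ y (i + 3) = -1 ∧ y (i + 6) = 1) :=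
      fun i hi => hex ⟨i, hi⟩
    simp [this, sg]

lemma fanoE_sum (i k : Fin 7) (b : Prop) [Decidable b] :
    ∑ u : ℤˣ, fanoC i k u * (if b then sg u else 1) = ((fanoE i k (decide b) : ℤ) : ℝ) := by
  rw [show (Finset.univ : Finset ℤˣ) = {1, -1} from rfl, Finset.sum_pair (by decide)]
  unfold fanoC fanoE
  by_cases hb : b
  · simp only [hb, if_true, decide_true]
    split_ifs <;> simp [sg] <;> norm_num
  · simp only [hb, if_false, decide_false, Bool.false_eq_true]
    split_ifs <;> simp [sg] <;> norm_num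

lemma fano_sum (U : Finset (Fin 7)) :
    ∑ y : Fin 7 → ℤˣ, sg (fano y) * chi U y
      = (if U = ∅ then (2 : ℝ) ^ 7 else 0)
        - 2 * ∑ i, ∏ k, ((fanoE i k (decide (k ∈ U)) : ℤ) : ℝ) := by
  simp_rw [sg_fano, sub_mul, one_mul, Finset.sum_sub_distrib, mul_assoc, ← Finset.mul_sum,
    Finset.sum_mul]
  rw [sum_chi, Finset.sum_comm]
  have hcard : (2 : ℝ) ^ Fintype.card (Fin 7) = 2 ^ 7 := by simp
  rw [hcard]
  congr 1
  congr 1
  apply Finset.sum_congr rfl
  intro i _
  simp_rw [chi_eq_prod_ite, ← Finset.prod_mul_distrib]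
  rw [← Fintype.prod_sum (fun (k : Fin 7) (u : ℤˣ) => fanoC i k u * (if k ∈ U then sg u else 1))]
  apply Finset.prod_congr rfl
  intro k _
  exact fanoE_sum i k (k ∈ U)

theorem degree_fano_le : degree fano ≤ 4 := by
  unfold degree
  apply Finset.sup_le
  intro U hU
  rw [Finset.mem_filter] at hU
  by_contra hcard
  apply hU.2
  rw [fourier_eq, fano_sum]
  have hU0 : U ≠ ∅ := by
    rintro rfl
    simp at hcard
  rw [if_neg hU0]
  have hz : ∀ i : Fin 7, ∏ k, ((fanoE i k (decide (k ∈ U)) : ℤ) : ℝ) = 0 := by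
    intro i
    have hex : ∃ k ∈ U, k ∉ ({i, i + 1, i + 3, i + 6} : Finset (Fin 7)) := by
      by_contra hno
      push Not at hno
      have hsub : U ⊆ ({i, i + 1, i + 3, i + 6} : Finset (Fin 7)) := hno
      have := (Finset.card_le_card hsub).trans Finset.card_le_four
      omega
    obtain ⟨k, hkU, hk⟩ := hex
    apply Finset.prod_eq_zero (Finset.mem_univ k)
    simp only [Finset.mem_insert, Finset.mem_singleton, not_or] at hk
    unfold fanoE
    rw [if_neg (by
      rintro (h | h | h)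
      · exact hk.1 h
      · exact hk.2.1 h
      · exact hk.2.2.1 h), if_neg hk.2.2.2]
    simp [hkU]
  simp [hz]

lemma fanoE_total :
    ∑ j : Fin 7, ∑ i : Fin 7, ∏ k : Fin 7, fanoE i k (decide (k ∈ ({j} : Finset (Fin 7)))) = -112 := by
  decide

theorem levelOne_fano : levelOne fano = 7 / 4 := by
  unfold levelOne
  have h1 : ∀ j : Fin 7, fourier fano {j}
      = (-2 * ∑ i, ∏ k, ((fanoE i k (decide (k ∈ ({j} : Finset (Fin 7)))) : ℤ) : ℝ)) / 2 ^ 7 := by
    intro j
    rw [fourier_eq, fano_sum, if_neg (by simp)]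
    simp
  simp_rw [h1]
  rw [← Finset.sum_div, ← Finset.mul_sum]
  have h2 : ∑ j : Fin 7, ∑ i : Fin 7, ∏ k : Fin 7,
      ((fanoE i k (decide (k ∈ ({j} : Finset (Fin 7)))) : ℤ) : ℝ) = ((-112 : ℤ) : ℝ) := by
    rw [← fanoE_total]
    push_cast
    rfl
  rw [h2]
  norm_num

end Vale.Agent.Lib.Helper2.P047
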