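import Mathlib

/-!
A comparison lemma for the differential inequality `(1 - ρ^2) |P'(ρ)| ≤ d (1 - P(ρ)^2)` on
`(-1, 1)`, and the resulting bound on `P(ξ) - P(-ξ)`.
-/

namespace Vale.Agent.Lib.Helper2.P047

/-- if `|P| < 1` and `(1 - ρ^2) |P'| ≤ d (1 - P^2)` on `(-1, 1)`, then
`(1 + P) / (1 - P) * ((1 - ρ) / (1 + ρ))^d` is non-increasing; compared at `-ξ` and `ξ` -/
lemma ode_compare (P P' : ℝ → ℝ) (d : ℕ)
    (hderiv : ∀ ρ : ℝ, HasDerivAt P (P' ρ) ρ)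
    (hlt : ∀ ρ : ℝ, -1 < ρ → ρ < 1 → |P ρ| < 1)
    (hineq : ∀ ρ : ℝ, -1 < ρ → ρ < 1 → (1 - ρ ^ 2) * |P' ρ| ≤ d * (1 - P ρ ^ 2))
    (ξ : ℝ) (h0 : 0 < ξ) (h1 : ξ < 1) :
    (1 + P ξ) * (1 - P (-ξ)) * (1 - ξ) ^ (2 * d)
      ≤ (1 - P ξ) * (1 + P (-ξ)) * (1 + ξ) ^ (2 * d) := by
  have hGd : ∀ ρ ∈ Set.Ioo (-1 : ℝ) 1, HasDerivAt
      (fun r : ℝ => Real.log (1 + P r) - Real.log (1 - P r)
        - d * (Real.log (1 + r) - Real.log (1 - r)))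
      (P' ρ / (1 + P ρ) - (- P' ρ) / (1 - P ρ) - d * (1 / (1 + ρ) - (-1) / (1 - ρ))) ρ := by
    intro ρ hρ
    have hP := abs_lt.mp (hlt ρ hρ.1 hρ.2)
    have e1 : HasDerivAt (fun r => 1 + P r) (P' ρ) ρ := (hderiv ρ).const_add 1
    have e2 : HasDerivAt (fun r => 1 - P r) (- P' ρ) ρ := (hderiv ρ).const_sub 1
    have e3 : HasDerivAt (fun r : ℝ => 1 + r) 1 ρ := (hasDerivAt_id ρ).const_add 1
    have e4 : HasDerivAt (fun r : ℝ => 1 - r) (-1) ρ := (hasDerivAt_id ρ).const_sub 1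
    have l1 := e1.log (by linarith [hP.1] : 1 + P ρ ≠ 0)
    have l2 := e2.log (by linarith [hP.2] : 1 - P ρ ≠ 0)
    have l3 := e3.log (by linarith [hρ.1] : 1 + ρ ≠ 0)
    have l4 := e4.log (by linarith [hρ.2] : 1 - ρ ≠ 0)
    exact (l1.sub l2).sub ((l3.sub l4).const_mul (d : ℝ))
  have hanti : AntitoneOn (fun r : ℝ => Real.log (1 + P r) - Real.log (1 - P r)
        - d * (Real.log (1 + r) - Real.log (1 - r))) (Set.Ioo (-1 : ℝ) 1) := by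
    apply antitoneOn_of_deriv_nonpos (convex_Ioo _ _)
    · exact fun ρ hρ => (hGd ρ hρ).continuousAt.continuousWithinAt
    · rw [interior_Ioo]
      exact fun ρ hρ => (hGd ρ hρ).differentiableAt.differentiableWithinAt
    · rw [interior_Ioo]
      intro ρ hρ
      rw [(hGd ρ hρ).deriv]
      have hP := abs_lt.mp (hlt ρ hρ.1 hρ.2)
      have hi := hineq ρ hρ.1 hρ.2
      have hr : 0 < 1 - ρ ^ 2 := by nlinarith [hρ.1, hρ.2]
      have hi' : (1 - ρ ^ 2) * P' ρ ≤ d * (1 - P ρ ^ 2) :=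
        le_trans (mul_le_mul_of_nonneg_left (le_abs_self _) hr.le) hi
      have ha : 0 < 1 + P ρ := by linarith [hP.1]
      have hb : 0 < 1 - P ρ := by linarith [hP.2]
      have hc : 0 < 1 + ρ := by linarith [hρ.1]
      have hd : 0 < 1 - ρ := by linarith [hρ.2]
      have e1 : P' ρ / (1 + P ρ) - (- P' ρ) / (1 - P ρ)
          = 2 * P' ρ / ((1 + P ρ) * (1 - P ρ)) := by
        field_simp
        ring
      have e2 : (d : ℝ) * (1 / (1 + ρ) - (-1) / (1 - ρ))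
          = 2 * d / ((1 + ρ) * (1 - ρ)) := by
        field_simp
        ring
      rw [e1, e2, sub_nonpos, div_le_div_iff₀ (mul_pos ha hb) (mul_pos hc hd)]
      nlinarith [hi']
  have hm : -ξ ∈ Set.Ioo (-1 : ℝ) 1 := ⟨by linarith, by linarith⟩
  have hp : ξ ∈ Set.Ioo (-1 : ℝ) 1 := ⟨by linarith, h1⟩
  have hG := hanti hm hp (by linarith : -ξ ≤ ξ)
  simp only [sub_neg_eq_add] at hG
  have hP1 := abs_lt.mp (hlt ξ hp.1 hp.2)
  have hP2 := abs_lt.mp (hlt (-ξ) hm.1 hm.2)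
  have ha : 0 < 1 + P ξ := by linarith [hP1.1]
  have hb : 0 < 1 - P ξ := by linarith [hP1.2]
  have ha' : 0 < 1 + P (-ξ) := by linarith [hP2.1]
  have hb' : 0 < 1 - P (-ξ) := by linarith [hP2.2]
  have hc : 0 < 1 + ξ := by linarith
  have hd : 0 < 1 - ξ := by linarith
  have e : (1 : ℝ) + -ξ = 1 - ξ := by ring
  rw [e] at hG
  have hlog : Real.log ((1 + P ξ) * (1 - P (-ξ)) * (1 - ξ) ^ (2 * d))
      ≤ Real.log ((1 - P ξ) * (1 + P (-ξ)) * (1 + ξ) ^ (2 * d)) := by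
    rw [Real.log_mul (mul_pos ha hb').ne' (pow_pos hd _).ne', Real.log_mul ha.ne' hb'.ne',
      Real.log_mul (mul_pos hb ha').ne' (pow_pos hc _).ne', Real.log_mul hb.ne' ha'.ne',
      Real.log_pow, Real.log_pow]
    push_cast
    linarith
  exact (Real.log_le_log_iff (mul_pos (mul_pos ha hb') (pow_pos hd _))
    (mul_pos (mul_pos hb ha') (pow_pos hc _))).mp hlog

/-- the algebraic consequence of the comparison -/
lemma ode_gap (a b A : ℝ) (ha : |a| < 1) (hb : |b| < 1) (hA : 1 ≤ A)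
    (h : (1 + a) * (1 - b) ≤ A ^ 2 * ((1 - a) * (1 + b))) :
    a - b ≤ 2 - 4 / (A + 1) := by
  have ha' := abs_lt.mp ha
  have hb' := abs_lt.mp hb
  have hA1 : 0 < A + 1 := by linarith
  have hp : 0 < 1 - a := by linarith [ha'.2]
  have hq : 0 < 1 + b := by linarith [hb'.1]
  suffices hs : 4 ≤ ((1 - a) + (1 + b)) * (A + 1) by
    have h4 : 4 / (A + 1) ≤ (1 - a) + (1 + b) := by
      rw [div_le_iff₀ hA1]
      exact hs
    linarith
  by_contra hcon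
  push Not at hcon
  have h2 : (1 - a) * (1 + b) ≤ ((1 - a) + (1 + b)) ^ 2 / 4 := by
    nlinarith [sq_nonneg ((1 - a) - (1 + b))]
  have hA2 : 0 ≤ A ^ 2 - 1 := by nlinarith
  have h3 : (A ^ 2 - 1) * ((1 - a) * (1 + b)) ≤ (A ^ 2 - 1) * (((1 - a) + (1 + b)) ^ 2 / 4) :=
    mul_le_mul_of_nonneg_left h2 hA2
  have hs0 : 0 ≤ (A - 1) * ((1 - a) + (1 + b)) := mul_nonneg (by linarith) (by linarith)
  have h4 : (A ^ 2 - 1) * (((1 - a) + (1 + b)) ^ 2 / 4)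
      ≤ (A - 1) * ((1 - a) + (1 + b)) := by
    have : (A ^ 2 - 1) * (((1 - a) + (1 + b)) ^ 2 / 4)
        = (A - 1) * ((1 - a) + (1 + b)) * ((((1 - a) + (1 + b)) * (A + 1)) / 4) := by ring
    rw [this]
    have h5 : (((1 - a) + (1 + b)) * (A + 1)) / 4 ≤ 1 := by linarith
    calc (A - 1) * ((1 - a) + (1 + b)) * ((((1 - a) + (1 + b)) * (A + 1)) / 4)
        ≤ (A - 1) * ((1 - a) + (1 + b)) * 1 := mul_le_mul_of_nonneg_left h5 hs0
      _ = _ := by ring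
  nlinarith [h, h3, h4]

/-- combined: the bound on `P(ξ) - P(-ξ)` -/
lemma ode_bound (P P' : ℝ → ℝ) (d : ℕ)
    (hderiv : ∀ ρ : ℝ, HasDerivAt P (P' ρ) ρ)
    (hlt : ∀ ρ : ℝ, -1 < ρ → ρ < 1 → |P ρ| < 1)
    (hineq : ∀ ρ : ℝ, -1 < ρ → ρ < 1 → (1 - ρ ^ 2) * |P' ρ| ≤ d * (1 - P ρ ^ 2))
    (ξ : ℝ) (h0 : 0 < ξ) (h1 : ξ < 1) :
    P ξ - P (-ξ) ≤ 2 - 4 / (((1 + ξ) / (1 - ξ)) ^ d + 1) := by
  have hc := ode_compare P P' d hderiv hlt hineq ξ h0 h1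
  have hd : 0 < 1 - ξ := by linarith
  have hA : 1 ≤ ((1 + ξ) / (1 - ξ)) ^ d := by
    apply one_le_pow₀
    rw [le_div_iff₀ hd]
    linarith
  apply ode_gap _ _ _ (hlt ξ (by linarith) h1) (hlt (-ξ) (by linarith) (by linarith)) hA
  rw [← pow_mul, mul_comm d 2, div_pow]
  have hpos : 0 < (1 - ξ) ^ (2 * d) := pow_pos hd _
  rw [div_mul_eq_mul_div, le_div_iff₀ hpos]
  linarith

end Vale.Agent.Lib.Helper2.P047
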