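import Mathlib
import Vale.Agent.Lib.Helper2.P047.Biased
import Vale.Agent.Lib.Helper2.P047.Ode
import Vale.Agent.Lib.Helper2.P047.Bern

/-!
The level-one sum of a Boolean function of degree `d ≥ 2` is at most `(29/30) d`.
-/

namespace Vale.Agent.Lib.Helper2.P047

open Polynomial

variable {ι : Type} [Fintype ι] [DecidableEq ι]

/-- the polynomial `R` with `x R(x^2) = (P(x) - P(-x)) / 2`, `P` the biased mean of `f` -/
noncomputable def oddPoly (f : (ι → ℤˣ) → ℤˣ) : ℝ[X] :=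
  ∑ T : Finset ι, if Odd T.card then C (fourier f T) * X ^ ((T.card - 1) / 2) else 0

lemma oddPoly_natDegree (f : (ι → ℤˣ) → ℤˣ) : (oddPoly f).natDegree ≤ (degree f - 1) / 2 := by
  unfold oddPoly
  apply natDegree_sum_le_of_forall_le
  intro T _
  split_ifs with hodd
  · by_cases h0 : fourier f T = 0
    · rw [h0]
      simp
    · have h1 := card_le_degree f T h0
      refine le_trans (natDegree_C_mul_X_pow_le _ _) ?_
      omega
  · simp

lemma oddPoly_eval (f : (ι → ℤˣ) → ℤˣ) (x : ℝ) :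
    x * (oddPoly f).eval (x ^ 2) = (bco f x ∅ - bco f (-x) ∅) / 2 := by
  unfold oddPoly
  rw [bco_empty_poly, bco_empty_poly, eval_finsetSum, ← Finset.sum_sub_distrib, Finset.sum_div,
    Finset.mul_sum]
  apply Finset.sum_congr rfl
  intro T _
  split_ifs with hodd
  · rw [eval_mul, eval_C, eval_pow, eval_X, hodd.neg_pow]
    obtain ⟨k, hk⟩ := hodd
    have h1 : (T.card - 1) / 2 = k := by omega
    rw [h1, hk, ← pow_mul, pow_succ]
    ring
  · rw [Nat.not_odd_iff_even] at hodd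
    rw [hodd.neg_pow]
    simp

lemma oddPoly_eval_zero (f : (ι → ℤˣ) → ℤˣ) : (oddPoly f).eval 0 = levelOne f := by
  unfold oddPoly levelOne
  rw [eval_finsetSum]
  have h1 : ∀ T : Finset ι,
      (if Odd T.card then C (fourier f T) * X ^ ((T.card - 1) / 2) else (0 : ℝ[X])).eval 0
      = if T.card = 1 then fourier f T else 0 := by
    intro T
    by_cases hodd : Odd T.card
    · rw [if_pos hodd, eval_mul, eval_C, eval_pow, eval_X]
      obtain ⟨k, hk⟩ := hodd
      have h1 : (T.card - 1) / 2 = k := by omega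
      rw [h1]
      by_cases hk0 : k = 0
      · subst hk0
        rw [if_pos (by omega)]
        simp
      · rw [if_neg (by omega), zero_pow hk0, mul_zero]
    · rw [if_neg hodd, if_neg]
      · simp
      · intro h
        apply hodd
        rw [h]
        exact odd_one
  simp_rw [h1]
  rw [← Finset.sum_filter]
  have h2 : Finset.univ.filter (fun T : Finset ι => T.card = 1)
      = Finset.univ.map ⟨fun i : ι => ({i} : Finset ι), Finset.singleton_injective⟩ := by
    ext T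
    simp [Finset.card_eq_one, eq_comm]
  rw [h2, Finset.sum_map]
  rfl

/-- a constant function has degree `0` -/
lemma degree_eq_zero_of_const (f : (ι → ℤˣ) → ℤˣ) (hf : ∀ x y, f x = f y) : degree f = 0 := by
  unfold degree
  apply Nat.eq_zero_of_le_zero
  apply Finset.sup_le
  intro S hS
  simp only [Finset.mem_filter, Finset.mem_univ, true_and] at hS
  have hS0 : S = ∅ := by
    by_contra hne
    apply hS
    rw [fourier_eq]
    have h1 : ∀ x : ι → ℤˣ, sg (f x) * chi S x = sg (f (fun _ => 1)) * chi S x := by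
      intro x
      rw [hf x (fun _ => 1)]
    simp_rw [h1]
    rw [← Finset.mul_sum, sum_chi, if_neg hne, mul_zero, zero_div]
  rw [hS0]
  simp

lemma oddPoly_bd (f : (ι → ℤˣ) → ℤˣ) (m : ℕ) :
    ∀ i ≤ m, |nd m i * (oddPoly f).eval (nd m i ^ 2)| ≤ 1 := by
  intro i hi
  rw [oddPoly_eval]
  have hx := nd_pos m i hi
  have hx1 : nd m i ≤ 1 := Real.cos_le_one _
  have h1 := abs_le.mp (abs_bco_empty_le (by linarith : (-1 : ℝ) ≤ nd m i) hx1 f)
  have h2 := abs_le.mp (abs_bco_empty_le (by linarith : (-1 : ℝ) ≤ -nd m i) (by linarith) f)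
  rw [abs_le]
  constructor <;> linarith [h1.1, h1.2, h2.1, h2.2]

/-- the bound without gain: `levelOne f ≤ 2m+1` when `degree f ≤ 2m+2` -/
lemma levelOne_le_odd (f : (ι → ℤˣ) → ℤˣ) (m : ℕ) (hm : degree f ≤ 2 * m + 2) :
    levelOne f ≤ 2 * (m : ℝ) + 1 := by
  have hdeg : (oddPoly f).natDegree ≤ m := le_trans (oddPoly_natDegree f) (by omega)
  have hbd := oddPoly_bd f m
  have h := interp_bound m (oddPoly f) hdeg hbd 0 le_rfl (by
    have h1 := (abs_le.mp (hbd m le_rfl)).2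
    linarith)
  rw [oddPoly_eval_zero] at h
  simpa using h

/-- the bound with gain -/
lemma levelOne_le_gain (f : (ι → ℤˣ) → ℤˣ) (hf : ∃ x y, f x ≠ f y) (m : ℕ)
    (hm : degree f ≤ 2 * m + 2) (hm1 : 1 ≤ m) :
    levelOne f ≤ 2 * (m : ℝ) + 1
      - (2 / (((1 + nd m m) / (1 - nd m m)) ^ degree f + 1)) / nd m m := by
  have hdeg : (oddPoly f).natDegree ≤ m := le_trans (oddPoly_natDegree f) (by omega)
  have hbd := oddPoly_bd f m
  have hξ0 := nd_pos m m le_rfl
  have hξ1 : nd m m < 1 := by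
    have h := nd_lt m (show 0 < m by omega) le_rfl
    rwa [nd_zero] at h
  have hode := ode_bound (fun r => bco f r ∅) (fun ρ => ∑ i, bco f ρ {i}) (degree f)
    (fun ρ => hasDerivAt_bco_empty f ρ)
    (fun ρ h1 h2 => abs_bco_empty_lt h1 h2 f hf)
    (fun ρ h1 h2 => bias_ode h1.le h2.le f) (nd m m) hξ0 hξ1
  have hA : 0 < ((1 + nd m m) / (1 - nd m m)) ^ degree f + 1 :=
    add_pos (pow_pos (div_pos (by linarith) (by linarith)) _) one_pos
  have h := interp_bound m (oddPoly f) hdeg hbd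
    (2 / (((1 + nd m m) / (1 - nd m m)) ^ degree f + 1)) (div_nonneg (by norm_num) hA.le) (by
      rw [oddPoly_eval]
      have e : 4 / (((1 + nd m m) / (1 - nd m m)) ^ degree f + 1)
          = 2 * (2 / (((1 + nd m m) / (1 - nd m m)) ^ degree f + 1)) := by ring
      linarith)
  rw [oddPoly_eval_zero] at h
  exact h

lemma exp_seven_half : Real.exp (7 / 2) ≤ 33.2 := by
  have h7 : Real.exp (7 / 2) ^ 2 = Real.exp 1 ^ 7 := by
    rw [← Real.exp_nat_mul, ← Real.exp_nat_mul]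
    norm_num
  have hlt : Real.exp 1 ^ 7 < (2.7182818286 : ℝ) ^ 7 :=
    pow_lt_pow_left₀ Real.exp_one_lt_d9 (Real.exp_pos 1).le (by norm_num)
  have hnum : (2.7182818286 : ℝ) ^ 7 < 33.2 ^ 2 := by norm_num
  have hsq : Real.exp (7 / 2) ^ 2 < 33.2 ^ 2 := by
    rw [h7]
    exact hlt.trans hnum
  exact (lt_of_pow_lt_pow_left₀ 2 (by norm_num) hsq).le

lemma ratio_le_exp (ξ : ℝ) (h0 : 0 ≤ ξ) (h1 : ξ < 1) :
    (1 + ξ) / (1 - ξ) ≤ Real.exp (2 * ξ / (1 - ξ ^ 2)) := by
  have hu : 0 < 1 - ξ ^ 2 := by nlinarith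
  have hd : 0 < 1 - ξ := by linarith
  have ht : 0 ≤ 2 * ξ / (1 - ξ ^ 2) := div_nonneg (by linarith) hu.le
  refine le_trans ?_ (Real.quadratic_le_exp_of_nonneg ht)
  have e : 1 + 2 * ξ / (1 - ξ ^ 2) + (2 * ξ / (1 - ξ ^ 2)) ^ 2 / 2 - (1 + ξ) / (1 - ξ)
      = 2 * ξ ^ 4 / (1 - ξ ^ 2) ^ 2 := by
    have hu' : (1 - ξ ^ 2) = (1 - ξ) * (1 + ξ) := by ring
    have hc : (1 + ξ) ≠ 0 := by linarith
    rw [hu']
    field_simp
    ring
  have hnn : 0 ≤ 2 * ξ ^ 4 / (1 - ξ ^ 2) ^ 2 := by positivity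
  linarith

lemma ratio_pow_le (ξ : ℝ) (d : ℕ) (h0 : 0 < ξ) (h1 : ξ < 1)
    (h : 2 * (d : ℝ) * ξ ≤ 7 / 2 * (1 - ξ ^ 2)) : ((1 + ξ) / (1 - ξ)) ^ d ≤ 33.2 := by
  have hu : 0 < 1 - ξ ^ 2 := by nlinarith
  have hd : 0 < 1 - ξ := by linarith
  calc ((1 + ξ) / (1 - ξ)) ^ d ≤ (Real.exp (2 * ξ / (1 - ξ ^ 2))) ^ d :=
        pow_le_pow_left₀ (div_nonneg (by linarith) hd.le) (ratio_le_exp ξ h0.le h1) d
    _ = Real.exp (d * (2 * ξ / (1 - ξ ^ 2))) := (Real.exp_nat_mul _ d).symm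
    _ ≤ Real.exp (7 / 2) := by
        apply Real.exp_le_exp.mpr
        rw [← mul_div_assoc, div_le_iff₀ hu]
        linarith
    _ ≤ 33.2 := exp_seven_half

lemma nd_last_le (m : ℕ) : nd m m * (2 * (2 * (m : ℝ) + 1)) ≤ Real.pi := by
  have h1 := nd_arg_lt m m le_rfl
  have h2 := Real.sin_le (x := Real.pi / 2 - m * Real.pi / (2 * m + 1)) (by linarith)
  rw [Real.sin_pi_div_two_sub] at h2
  have e : Real.pi / 2 - m * Real.pi / (2 * m + 1) = Real.pi / (2 * (2 * (m : ℝ) + 1)) := by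
    field_simp
    ring
  rw [e, le_div_iff₀ (by positivity)] at h2
  exact h2

/-- the numerical step -/
lemma gain_numeric (m d : ℕ)
    (hcase : (d = 2 * m + 1 ∧ 2 ≤ m) ∨ (d = 2 * m + 2 ∧ 15 ≤ m)) :
    2 * (m : ℝ) + 1 - (2 / (((1 + nd m m) / (1 - nd m m)) ^ d + 1)) / nd m m
      ≤ 29 / 30 * (d : ℝ) := by
  have hm1 : 1 ≤ m := by omega
  have hξ0 := nd_pos m m le_rfl
  have hξ1 : nd m m < 1 := by
    have h := nd_lt m (show 0 < m by omega) le_rfl
    rwa [nd_zero] at h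
  have hξn := nd_last_le m
  have hpi := Real.pi_lt_d4
  have hkey : 2 * (d : ℝ) * nd m m ≤ 7 / 2 * (1 - nd m m ^ 2) := by
    rcases hcase with ⟨hd, hm2⟩ | ⟨hd, hm15⟩
    · have hm2' : (2 : ℝ) ≤ m := by exact_mod_cast hm2
      have hξ : nd m m ≤ 0.31416 := by nlinarith
      have hsq : nd m m ^ 2 ≤ 0.31416 ^ 2 := pow_le_pow_left₀ hξ0.le hξ 2
      rw [hd]
      push_cast
      nlinarith
    · have hm15' : (15 : ℝ) ≤ m := by exact_mod_cast hm15
      have hξ : nd m m ≤ 0.0507 := by nlinarith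
      have hsq : nd m m ^ 2 ≤ 0.0507 ^ 2 := pow_le_pow_left₀ hξ0.le hξ 2
      rw [hd]
      push_cast
      nlinarith
  have hA := ratio_pow_le (nd m m) d hξ0 hξ1 hkey
  have hApos : 0 < ((1 + nd m m) / (1 - nd m m)) ^ d + 1 :=
    add_pos (pow_pos (div_pos (by linarith) (by linarith)) _) one_pos
  have h1 : (2 : ℝ) / 34.2 ≤ 2 / (((1 + nd m m) / (1 - nd m m)) ^ d + 1) :=
    div_le_div_of_nonneg_left (by norm_num) hApos (by linarith)
  have h2 : (2 * (m : ℝ) + 1) / 30 ≤ (2 / (((1 + nd m m) / (1 - nd m m)) ^ d + 1)) / nd m m := by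
    rw [le_div_iff₀ hξ0]
    have h3 : (2 * (m : ℝ) + 1) / 30 * nd m m ≤ Real.pi / 60 := by nlinarith
    have h4 : Real.pi / 60 ≤ (2 : ℝ) / 34.2 := by
      norm_num
      linarith
    linarith
  have hd' : 2 * (m : ℝ) + 1 ≤ d := by
    rcases hcase with ⟨hd, _⟩ | ⟨hd, _⟩ <;> rw [hd] <;> push_cast <;> linarith
  linarith

/-- the level-one sum of a Boolean function of degree `d ≥ 2` is at most `(29/30) d` -/
theorem levelOne_le_linear (f : (ι → ℤˣ) → ℤˣ) (hd : 2 ≤ degree f) :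
    levelOne f ≤ 29 / 30 * (degree f : ℝ) := by
  have hf : ∃ x y, f x ≠ f y := by
    by_contra h
    push Not at h
    have h0 := degree_eq_zero_of_const f h
    omega
  obtain ⟨m, hm⟩ : ∃ m, degree f = 2 * m + 1 ∨ degree f = 2 * m + 2 :=
    ⟨(degree f - 1) / 2, by omega⟩
  rcases hm with hm | hm
  · have hm1 : 1 ≤ m := by omega
    have hg := levelOne_le_gain f hf m (by omega) hm1
    by_cases hm2 : m = 1
    · subst hm2
      have hnd : nd 1 1 = 1 / 2 := by
        unfold nd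
        have e : ((1 : ℕ) : ℝ) * Real.pi / (2 * ((1 : ℕ) : ℝ) + 1) = Real.pi / 3 := by
          push_cast
          ring
        rw [e, Real.cos_pi_div_three]
      rw [hnd, hm] at hg
      rw [hm]
      norm_num at hg ⊢
      linarith
    · exact le_trans hg (gain_numeric m (degree f) (Or.inl ⟨hm, by omega⟩))
  · by_cases hm14 : m ≤ 14
    · have h1 := levelOne_le_odd f m (by omega)
      have h2 : (m : ℝ) ≤ 14 := by exact_mod_cast hm14
      rw [hm]
      push_cast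
      linarith
    · have hg := levelOne_le_gain f hf m (by omega) (by omega)
      exact le_trans hg (gain_numeric m (degree f) (Or.inr ⟨hm, by omega⟩))

end Vale.Agent.Lib.Helper2.P047
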