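import Mathlib

/-!
The majority value `B_d = E |X_1 + ... + X_d|` of problem P047, `X` uniform on `{-1,1}^d`
(the cube is modelled as `Fin d → ℤˣ`).
-/

namespace Vale.Agent.Lib.Helper2.P047

/-- `B_d = E |X_1 + ... + X_d|` for `X` uniform on `{-1,1}^d` -/
noncomputable def majBound (d : ℕ) : ℝ :=
  (∑ x : Fin d → ℤˣ, |∑ i, ((x i : ℤ) : ℝ)|) / 2 ^ d

end Vale.Agent.Lib.Helper2.P047
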