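import Mathlib
import Vale.Agent.Lib.Helper2.P047.MajGlue
import Vale.Agent.Lib.Helper2.P047.MajDef

/-!
The majority value `B_d = E |X_1 + ... + X_d|` of problem P047 and the comparison of the glued
function of `MajGlue` with it.
-/

namespace Vale.Agent.Lib.Helper2.P047

open Finset

variable {ι : Type} [Fintype ι] [DecidableEq ι]

lemma majBound_eq (d : ℕ) :
    majBound d = (∑ x : Fin d → ℤˣ, |((tot x : ℤ) : ℝ)|) / 2 ^ d := by
  unfold majBound
  congr 1
  apply Finset.sum_congr rfl
  intro x _
  rw [cast_tot]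
  rfl

/-- `B_{m+3}` as an average over the cube of dimension `m`, for odd `m` -/
lemma majBound_add_three (m : ℕ) (hm : Odd m) :
    majBound (m + 3)
      = (∑ x : Fin m → ℤˣ, (if |tot x| = 1 then (3 / 2 : ℝ) else |((tot x : ℤ) : ℝ)|)) / 2 ^ m := by
  rw [majBound_eq]
  have e : Fin (m + 3) ≃ Option (Option (Option (Fin m))) :=
    Fintype.equivOfCardEq (by simp)
  have a := sum_tot_congr e (fun s => |((s : ℤ) : ℝ)|)
  have b := sum_tot_option3 (α := Fin m) (fun s => |((s : ℤ) : ℝ)|)
  rw [a, b]
  have hodd : Odd (Fintype.card (Fin m)) := by simpa using hm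
  have h1 : ∀ x : Fin m → ℤˣ,
      |((tot x + 3 : ℤ) : ℝ)| + 3 * |((tot x + 1 : ℤ) : ℝ)| + 3 * |((tot x - 1 : ℤ) : ℝ)|
          + |((tot x - 3 : ℤ) : ℝ)|
        = 8 * (if |tot x| = 1 then (3 / 2 : ℝ) else |((tot x : ℤ) : ℝ)|) := by
    intro x
    rw [abs_three_step (tot x) (odd_tot hodd x)]
    split_ifs <;> norm_num
  simp_rw [h1]
  rw [← Finset.mul_sum, pow_add]
  have h2 : (2 : ℝ) ^ m ≠ 0 := by positivity
  field_simp
  ring

/-- the alternating point of the cube -/
def altPoint (m : ℕ) : Fin m → ℤˣ := fun j => if (j : ℕ) % 2 = 0 then 1 else -1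

lemma alt_sum (k : ℕ) :
    ∑ i ∈ Finset.range (2 * k + 1), (if i % 2 = 0 then (1 : ℤ) else -1) = 1 := by
  induction k with
  | zero => simp
  | succ k ih =>
    rw [show 2 * (k + 1) + 1 = (2 * k + 1) + 1 + 1 by ring, Finset.sum_range_succ,
      Finset.sum_range_succ, ih]
    have h1 : (2 * k + 1) % 2 = 1 := by omega
    have h2 : (2 * k + 1 + 1) % 2 = 0 := by omega
    simp [h1, h2]

lemma tot_altPoint (k : ℕ) : tot (altPoint (2 * k + 1)) = 1 := by
  unfold tot altPoint
  have h : ∀ j : Fin (2 * k + 1),
      (((if (j : ℕ) % 2 = 0 then (1 : ℤˣ) else -1) : ℤˣ) : ℤ)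
        = (fun i : ℕ => if i % 2 = 0 then (1 : ℤ) else -1) (j : ℕ) := by
    intro j
    by_cases hj : (j : ℕ) % 2 = 0 <;> simp [hj]
  simp_rw [h]
  rw [Fin.sum_univ_eq_sum_range (fun i : ℕ => if i % 2 = 0 then (1 : ℤ) else -1) (2 * k + 1)]
  exact alt_sum k

/-- exact excess of the glued function over `B_{m+3}` -/
theorem levelOne_glueMaj_eq (m : ℕ) (hm : Odd m) (h : (ι → ℤˣ) → ℤˣ) :
    levelOne (glueMaj (κ := Fin m) h)
      = majBound (m + 3)
        + (levelOne h - 3 / 2)
          * ((Finset.univ.filter (fun x : Fin m → ℤˣ => |tot x| = 1)).card : ℝ) / 2 ^ m := by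
  rw [levelOne_glueMaj', majBound_add_three m hm, Fintype.card_fin, ← add_div]
  congr 1
  have hc : ((Finset.univ.filter (fun x : Fin m → ℤˣ => |tot x| = 1)).card : ℝ)
      = ∑ x : Fin m → ℤˣ, (if |tot x| = 1 then (1 : ℝ) else 0) := by
    rw [Finset.card_filter]
    push_cast
    rfl
  rw [hc, Finset.mul_sum, ← Finset.sum_add_distrib]
  apply Finset.sum_congr rfl
  intro x _
  split_ifs <;> ring

/-- the glued function beats `B_{m+3}` as soon as `h` has level-one sum above `3/2` -/
theorem majBound_lt_levelOne_glueMaj (m : ℕ) (hm : Odd m) (h : (ι → ℤˣ) → ℤˣ)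
    (hh : 3 / 2 < levelOne h) :
    majBound (m + 3) < levelOne (glueMaj (κ := Fin m) h) := by
  rw [levelOne_glueMaj_eq m hm h]
  have hpos : (0 : ℝ) < ((Finset.univ.filter (fun x : Fin m → ℤˣ => |tot x| = 1)).card : ℝ) := by
    obtain ⟨k, rfl⟩ := hm
    have hmem : altPoint (2 * k + 1) ∈ Finset.univ.filter (fun x : Fin (2 * k + 1) → ℤˣ => |tot x| = 1) := by
      simp [tot_altPoint]
    exact_mod_cast Finset.card_pos.mpr ⟨_, hmem⟩
  have h2 : (0 : ℝ) < (2 : ℝ) ^ m := by positivity
  have h3 : 0 < (levelOne h - 3 / 2)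
      * ((Finset.univ.filter (fun x : Fin m → ℤˣ => |tot x| = 1)).card : ℝ) / 2 ^ m := by
    apply div_pos _ h2
    exact mul_pos (by linarith) hpos
  linarith

section count

variable {κ : Type} [Fintype κ] [DecidableEq κ]

/-- the set of coordinates equal to one -/
def plusSet (x : κ → ℤˣ) : Finset κ := Finset.univ.filter (fun i => x i = 1)

lemma tot_eq_plusSet (x : κ → ℤˣ) : tot x = 2 * ((plusSet x).card : ℤ) - Fintype.card κ := by
  have h : ∀ j : κ, ((x j : ℤˣ) : ℤ) = 2 * (if x j = 1 then 1 else 0) - 1 := by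
    intro j
    rcases Int.units_eq_one_or (x j) with h | h <;> simp [h]
  unfold tot plusSet
  simp_rw [h]
  rw [Finset.sum_sub_distrib, ← Finset.mul_sum, Finset.card_filter]
  simp

/-- the number of points of the cube with a given number of coordinates equal to one -/
lemma card_plusSet_eq (j : ℕ) :
    (Finset.univ.filter (fun x : κ → ℤˣ => (plusSet x).card = j)).card
      = (Fintype.card κ).choose j := by
  rw [← Finset.card_univ (α := κ), ← Finset.card_powersetCard j (Finset.univ : Finset κ)]
  apply Finset.card_nbij' (fun x => plusSet x) (fun S => fun i => if i ∈ S then (1 : ℤˣ) else -1)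
  · intro x hx
    simp only [Finset.coe_filter, Finset.mem_univ, true_and, Set.mem_setOf_eq] at hx
    simp [Finset.mem_powersetCard, hx]
  · intro S hS
    have hS' : S.card = j := by
      simpa [Finset.mem_powersetCard] using hS
    simp only [Finset.coe_filter, Finset.mem_univ, true_and, Set.mem_setOf_eq]
    rw [← hS']
    congr 1
    ext i
    simp only [plusSet, Finset.mem_filter, Finset.mem_univ, true_and]
    constructor
    · intro h
      by_contra hi
      rw [if_neg hi] at h
      exact absurd h (by decide)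
    · intro hi
      rw [if_pos hi]
  · intro x _
    funext i
    simp only [plusSet, Finset.mem_filter, Finset.mem_univ, true_and]
    rcases Int.units_eq_one_or (x i) with h | h
    · rw [if_pos h, h]
    · rw [if_neg (by rw [h]; decide), h]
  · intro S _
    ext i
    simp only [plusSet, Finset.mem_filter, Finset.mem_univ, true_and]
    constructor
    · intro h
      by_contra hi
      rw [if_neg hi] at h
      exact absurd h (by decide)
    · intro hi
      rw [if_pos hi]

end count

/-- the number of points of the odd-dimensional cube whose coordinate sum is `1` or `-1` -/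
lemma card_slab (k : ℕ) :
    (Finset.univ.filter (fun x : Fin (2 * k + 1) → ℤˣ => |tot x| = 1)).card
      = 2 * (2 * k + 1).choose k := by
  have hsplit : (Finset.univ.filter (fun x : Fin (2 * k + 1) → ℤˣ => |tot x| = 1))
      = (Finset.univ.filter (fun x : Fin (2 * k + 1) → ℤˣ => (plusSet x).card = k + 1))
        ∪ (Finset.univ.filter (fun x : Fin (2 * k + 1) → ℤˣ => (plusSet x).card = k)) := by
    ext x
    simp only [Finset.mem_filter, Finset.mem_univ, true_and, Finset.mem_union]
    rw [tot_eq_plusSet, Fintype.card_fin, abs_eq (by norm_num)]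
    push_cast
    constructor
    · rintro (h | h)
      · left; omega
      · right; omega
    · rintro (h | h)
      · left; omega
      · right; omega
  have hdisj : Disjoint
      (Finset.univ.filter (fun x : Fin (2 * k + 1) → ℤˣ => (plusSet x).card = k + 1))
      (Finset.univ.filter (fun x : Fin (2 * k + 1) → ℤˣ => (plusSet x).card = k)) := by
    rw [Finset.disjoint_filter]
    intro x _ h1 h2
    omega
  rw [hsplit, Finset.card_union_of_disjoint hdisj, card_plusSet_eq, card_plusSet_eq,
    Fintype.card_fin, Nat.choose_symm_half]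
  ring

end Vale.Agent.Lib.Helper2.P047
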