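import Mathlib
import Vale.Agent.Lib.Helper2.P047.Defs
import Vale.Agent.Lib.Helper2.P047.Compose

namespace Vale.Agent.Lib.Helper2.P047

open Finset

variable {ι : Type} [Fintype ι] [DecidableEq ι]

lemma sg_mul (u v : ℤˣ) : sg (u * v) = sg u * sg v := by simp [sg]

/-- the odd function `z * f (z * x)` in one more variable `z` -/
def oddify (f : (ι → ℤˣ) → ℤˣ) : (Option ι → ℤˣ) → ℤˣ :=
  fun x => x none * f (fun i => x none * x (some i))

/-- the part of `T` away from the new variable -/
def lower (T : Finset (Option ι)) : Finset ι := Finset.univ.filter (fun i => some i ∈ T)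

/-- the point `(z, z * u)` of the cube in one more variable -/
def glue (p : ℤˣ × (ι → ℤˣ)) : Option ι → ℤˣ :=
  fun o => match o with
    | none => p.1
    | some i => p.1 * p.2 i

/-- `glue` as an equivalence -/
def glueEquiv : (ℤˣ × (ι → ℤˣ)) ≃ (Option ι → ℤˣ) where
  toFun := glue
  invFun := fun x => (x none, fun i => x none * x (some i))
  left_inv := by
    intro p
    rcases p with ⟨z, u⟩
    simp only [glue]
    congr 1
    funext i
    rw [← mul_assoc, Int.units_mul_self, one_mul]
  right_inv := by
    intro x
    funext o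
    cases o with
    | none => rfl
    | some i =>
      simp only [glue]
      rw [← mul_assoc, Int.units_mul_self, one_mul]

lemma oddify_glue (f : (ι → ℤˣ) → ℤˣ) (z : ℤˣ) (u : ι → ℤˣ) :
    oddify f (glue (z, u)) = z * f u := by
  simp only [oddify, glue]
  congr 2
  funext i
  rw [← mul_assoc, Int.units_mul_self, one_mul]

lemma chi_glue (T : Finset (Option ι)) (z : ℤˣ) (u : ι → ℤˣ) :
    chi T (glue (z, u))
      = (if none ∈ T then sg z else 1) * (sg z ^ (lower T).card * chi (lower T) u) := by
  rw [chi_eq_prod_ite, Fintype.prod_option]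
  congr 1
  have h : ∀ i : ι, (if some i ∈ T then sg (glue (z, u) (some i)) else 1)
      = (if i ∈ lower T then sg z * sg (u i) else 1) := by
    intro i
    simp [lower, glue, sg_mul]
  simp_rw [h]
  rw [Finset.prod_ite_mem, Finset.univ_inter, Finset.prod_mul_distrib, Finset.prod_const]
  rfl

lemma sum_sign_pow (b : Prop) [Decidable b] (m : ℕ) :
    ∑ z : ℤˣ, sg z * ((if b then sg z else 1) * sg z ^ m)
      = if Odd (m + (if b then 1 else 0)) then 2 else 0 := by
  rw [show (Finset.univ : Finset ℤˣ) = {1, -1} from rfl]
  rw [Finset.sum_pair (by decide)]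
  simp only [sg_one, sg_neg_one, one_pow, mul_one, ite_self]
  by_cases hb : b
  · simp only [hb, if_true]
    rcases Nat.even_or_odd m with hm | hm
    · have h1 : Odd (m + 1) := hm.add_one
      simp only [h1, if_true, hm.neg_one_pow]
      norm_num
    · have h1 : ¬ Odd (m + 1) := Nat.not_odd_iff_even.mpr hm.add_one
      simp only [h1, if_false, hm.neg_one_pow]
      norm_num
  · simp only [hb, if_false, add_zero]
    rcases Nat.even_or_odd m with hm | hm
    · have h1 : ¬ Odd m := Nat.not_odd_iff_even.mpr hm
      simp only [h1, if_false, hm.neg_one_pow]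
      norm_num
    · simp only [hm, if_true, hm.neg_one_pow]
      norm_num

theorem fourier_oddify (f : (ι → ℤˣ) → ℤˣ) (T : Finset (Option ι)) :
    fourier (oddify f) T =
      if Odd ((lower T).card + (if none ∈ T then 1 else 0)) then fourier f (lower T) else 0 := by
  rw [fourier_eq]
  rw [← Fintype.sum_equiv glueEquiv (fun p => sg (oddify f (glue p)) * chi T (glue p)) _
    (fun p => rfl)]
  rw [Fintype.sum_prod_type]
  have h : ∀ (z : ℤˣ) (u : ι → ℤˣ), sg (oddify f (glue (z, u))) * chi T (glue (z, u))
      = (sg z * ((if none ∈ T then sg z else 1) * sg z ^ (lower T).card))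
        * (sg (f u) * chi (lower T) u) := by
    intro z u
    rw [oddify_glue, sg_mul, chi_glue]
    ring
  simp_rw [h]
  simp_rw [← Finset.mul_sum]
  rw [← Finset.sum_mul, sum_sign_pow, Fintype.card_option, fourier_eq]
  by_cases hodd : Odd ((lower T).card + (if none ∈ T then 1 else 0))
  · rw [if_pos hodd, if_pos hodd, pow_succ]
    field_simp
  · rw [if_neg hodd, if_neg hodd]
    simp

lemma lower_eq_eraseNone (T : Finset (Option ι)) : lower T = T.eraseNone := by
  ext i
  simp [lower]

lemma card_lower (T : Finset (Option ι)) :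
    T.card = (lower T).card + (if none ∈ T then 1 else 0) := by
  rw [lower_eq_eraseNone]
  by_cases h : none ∈ T
  · simp only [h, if_true]
    rw [Finset.card_eraseNone_of_mem h]
    have : 0 < T.card := Finset.card_pos.mpr ⟨none, h⟩
    omega
  · simp only [h, if_false, add_zero]
    rw [Finset.card_eraseNone_of_not_mem h]

lemma lower_empty : lower (∅ : Finset (Option ι)) = ∅ := by
  ext i
  simp [lower]

lemma lower_none : lower ({none} : Finset (Option ι)) = ∅ := by
  ext i
  simp [lower]

lemma lower_some (i : ι) : lower ({some i} : Finset (Option ι)) = {i} := by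
  ext j
  simp [lower]

theorem fourier_oddify_empty (f : (ι → ℤˣ) → ℤˣ) : fourier (oddify f) ∅ = 0 := by
  rw [fourier_oddify, lower_empty]
  simp

theorem levelOne_oddify (f : (ι → ℤˣ) → ℤˣ) :
    levelOne (oddify f) = levelOne f + fourier f ∅ := by
  unfold levelOne
  rw [Fintype.sum_option, fourier_oddify, lower_none]
  have h : ∀ i : ι, fourier (oddify f) {some i} = fourier f {i} := by
    intro i
    rw [fourier_oddify, lower_some]
    simp
  simp_rw [h]
  simp
  ring

theorem degree_oddify_le (f : (ι → ℤˣ) → ℤˣ) : degree (oddify f) ≤ degree f + 1 := by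
  unfold degree
  apply Finset.sup_le
  intro T hT
  rw [Finset.mem_filter, fourier_oddify] at hT
  have hne : fourier f (lower T) ≠ 0 := by
    intro h0
    apply hT.2
    split_ifs <;> simp [h0]
  have h1 : (lower T).card ≤ (Finset.univ.filter (fun S : Finset ι => fourier f S ≠ 0)).sup
      Finset.card := Finset.le_sup (f := Finset.card) (by simp [hne])
  have h2 := card_lower T
  split_ifs at h2 <;> omega

theorem degree_oddify_le_of_odd (f : (ι → ℤˣ) → ℤˣ) (hd : Odd (degree f)) :
    degree (oddify f) ≤ degree f := by
  have hdef : degree f = (Finset.univ.filter (fun S : Finset ι => fourier f S ≠ 0)).sup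
      Finset.card := rfl
  rw [show degree (oddify f) = (Finset.univ.filter
    (fun S : Finset (Option ι) => fourier (oddify f) S ≠ 0)).sup Finset.card from rfl]
  apply Finset.sup_le
  intro T hT
  rw [Finset.mem_filter, fourier_oddify] at hT
  have hpar : Odd ((lower T).card + (if none ∈ T then 1 else 0)) := by
    by_contra hc
    apply hT.2
    simp [hc]
  have hne : fourier f (lower T) ≠ 0 := by
    intro h0
    apply hT.2
    split_ifs <;> simp [h0]
  have h1 : (lower T).card ≤ degree f := by
    rw [hdef]
    exact Finset.le_sup (f := Finset.card) (by simp [hne])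
  have h2 := card_lower T
  by_cases hn : none ∈ T
  · simp only [hn, if_true] at h2 hpar
    have h3 : (lower T).card ≠ degree f := by
      intro heq
      rw [heq] at hpar
      exact (Nat.not_odd_iff_even.mpr hd.add_one) hpar
    omega
  · simp only [hn, if_false, add_zero] at h2
    omega

/-- the reflected function `- f (- x)` -/
def reflect (f : (ι → ℤˣ) → ℤˣ) : (ι → ℤˣ) → ℤˣ := fun x => - f (fun i => - x i)

theorem fourier_reflect (f : (ι → ℤˣ) → ℤˣ) (S : Finset ι) :
    fourier (reflect f) S = (-1) ^ (S.card + 1) * fourier f S := by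
  rw [fourier_eq, fourier_eq, ← mul_div_assoc, Finset.mul_sum]
  congr 1
  apply Fintype.sum_equiv (Equiv.neg (ι → ℤˣ))
  intro x
  have h1 : sg (reflect f x) = - sg (f (fun i => - x i)) := by
    simp [reflect, sg]
  have h2 : chi S x = (-1) ^ S.card * chi S (fun i => - x i) := by
    unfold chi
    rw [← Finset.prod_const, ← Finset.prod_mul_distrib]
    apply Finset.prod_congr rfl
    intro i _
    simp [sg]
  rw [h1, h2]
  simp only [Equiv.neg_apply]
  have h3 : (-x : ι → ℤˣ) = fun i => - x i := rfl
  rw [h3, pow_succ]
  ring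

theorem levelOne_reflect (f : (ι → ℤˣ) → ℤˣ) : levelOne (reflect f) = levelOne f := by
  unfold levelOne
  apply Finset.sum_congr rfl
  intro i _
  rw [fourier_reflect]
  simp

theorem fourier_reflect_empty (f : (ι → ℤˣ) → ℤˣ) :
    fourier (reflect f) ∅ = - fourier f ∅ := by
  rw [fourier_reflect]
  simp

theorem degree_reflect (f : (ι → ℤˣ) → ℤˣ) : degree (reflect f) = degree f := by
  unfold degree
  congr 1
  ext S
  simp only [Finset.mem_filter, Finset.mem_univ, true_and, fourier_reflect]
  constructor
  · intro h h0
    apply h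
    rw [h0, mul_zero]
  · intro h h0
    rcases mul_eq_zero.mp h0 with h1 | h1
    · exact absurd h1 (pow_ne_zero _ (by norm_num))
    · exact h h1

end Vale.Agent.Lib.Helper2.P047
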